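import Vale.Agent.P088.R2.H349.EP.FW3

/-!
# P088, stage 3, EST': the derivatives of the weight of the package, `|x|, |y| ≤ 4 R / σ`
-/

open Set Filter
open scoped ContDiff Topology

noncomputable section

namespace Vale.Agent.P088.R2.H31.EP

/-- `G = Ψ_f` (away from the diagonal). -/
def Pk.Gf {n : ℕ} (d : Pk n) (q : Cst) (z : Vale.Agent.P088.HY.VV n) : ℝ :=
  q.D 1 0 (d.u q z + Real.log (prS q.e₁ (d.r2 z)), √(d.r2 z))

end Vale.Agent.P088.R2.H31.EP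

namespace Vale.Agent.P088.R2.H349.EP

open Vale.Agent.P088.LR Vale.Agent.P088.HY Vale.Agent.P088.R2.H961.GW
open Vale.Agent.P088.R2.H464.Cu Vale.Agent.P088.R2.H31.EP
open Vale.Agent.P088.R2.H475 (levG lam0 wR)
open Vale.Agent.P088.R2.H606.EP (cT eI rg_ng rg_n1 rg_n2)

variable {n : ℕ} {q : Cst} {d : Pk n} {z : VV n}

/-- The conditions on the constants. -/
structure FwQ (n : ℕ) (q : Cst) : Prop where
  hn : 1 ≤ n
  σ0 : 0 < q.σ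
  σ1 : q.σ ≤ 1 / 5000
  e0 : 0 < q.e₁
  c0 : 0 < q.c₀
  R1 : 1 ≤ q.R
  ε0 : 0 ≤ q.ε
  ε1 : q.ε ≤ eI n
  ε2 : q.ε ≤ 1
  ε3 : (n + 1) * (cT n * q.ε) ≤ 1 / 2
  ε4 : cT n * q.ε * (8 / q.σ) ≤ 1
  ε5 : cT n * q.ε * (8 / q.σ) ^ 2 ≤ 1
  rd : 2 < q.r₁ * Real.exp (-1)

theorem EvC.fwQ (hn : 1 ≤ n) : EvC (FwQ n) := by
  have h1 : EvC fun q => q.σ ≤ 1 / 5000 :=
    EvC.at_σ (fun _ t => t ≤ 1 / 5000) fun _ => sml_le (by norm_num)
  have h2 : EvC fun q => 0 < q.c' → 2 < q.c' * q.M₀ / 2 * Real.exp (-1) := by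
    refine EvC.at_M₀ (fun q t => 0 < q.c' → 2 < q.c' * t / 2 * Real.exp (-1)) fun q => ?_
    have he := Real.exp_pos (-1)
    by_cases h : 0 < q.c'
    · filter_upwards [eventually_gt_atTop (4 / (q.c' * Real.exp (-1)))] with t ht _
      rw [div_lt_iff₀ (by positivity)] at ht
      linarith
    · exact Eventually.of_forall fun _ a => absurd a h
  have h3 : EvC fun q => 0 < q.σ → q.ε ≤ eI n ∧ q.ε ≤ 1 ∧ (n + 1) * (cT n * q.ε) ≤ 1 / 2 ∧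
      cT n * q.ε * (8 / q.σ) ≤ 1 ∧ cT n * q.ε * (8 / q.σ) ^ 2 ≤ 1 := by
    refine EvC.at_ε (fun q t => 0 < q.σ → t ≤ eI n ∧ t ≤ 1 ∧ (n + 1) * (cT n * t) ≤ 1 / 2 ∧
      cT n * t * (8 / q.σ) ≤ 1 ∧ cT n * t * (8 / q.σ) ^ 2 ≤ 1) fun q => ?_
    have hc : 0 < cT n := by
      have := H606.EP.cT_ge n
      linarith
    by_cases h : 0 < q.σ
    · have he := (H606.EP.cI_spec n).1
      filter_upwards [sml_le he, sml_le one_pos, sml_pos,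
        sml_le (a := 1 / 2 / ((n + 1) * cT n)) (by positivity),
        sml_le (a := 1 / (cT n * (8 / q.σ))) (by positivity),
        sml_le (a := 1 / (cT n * (8 / q.σ) ^ 2)) (by positivity)] with t a1 a2 a3 a4 a5 a6 _
      refine ⟨a1, a2, ?_, ?_, ?_⟩
      · rw [le_div_iff₀ (by positivity)] at a4
        linarith
      · rw [le_div_iff₀ (by positivity)] at a5
        linarith
      · rw [le_div_iff₀ (by positivity)] at a6
        linarith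
    · exact Eventually.of_forall fun _ a => absurd a h
  refine ((EvC.pos.and h1).and (h2.and h3)).mono ?_
  rintro q ⟨⟨⟨⟨a1, a2, a3, a4, a5, a6, a7, a8, a9, a10⟩, ⟨b1, b2, b3, b4, b5, b6, b7⟩, c1, c2, c3,
    c4, c5, c6⟩, e1⟩, e2, e3⟩
  obtain ⟨f1, f2, f3, f4, f5⟩ := e3 b2
  exact ⟨hn, b2, e1, a2, a6, c6, c3.le, f1, f2, f3, f4, f5, e2 b3⟩

/-! ## The metric and `u` -/

theorem FwQ.cT0 (n : ℕ) : 0 < cT n := by
  have := H606.EP.cT_ge n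
  linarith

theorem FwQ.gz (hq : FwQ n q) (ok : PkOk q d) (h1 : ‖z.1‖ ≤ 4 / q.σ * q.R)
    (h2 : ‖z.2‖ ≤ 4 / q.σ * q.R) : Gz 1 (gi d.s₁) z := by
  have hR0 : 0 < q.R := one_pos.trans_le hq.R1
  have hc := FwQ.cT0 n
  have hε := hq.ε0
  have hce : 0 ≤ cT n * q.ε := by positivity
  have hσ := hq.σ0
  have hd : ‖dif z‖ ≤ 8 / q.σ * q.R := by
    unfold dif
    refine (norm_sub_le _ _).trans ?_
    have e : 8 / q.σ * q.R = 4 / q.σ * q.R + 4 / q.σ * q.R := by ring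
    rw [e]
    exact add_le_add h1 h2
  have h0 := norm_nonneg (dif z)
  have hi : 0 ≤ q.R⁻¹ := inv_nonneg.2 hR0.le
  have hRi : q.R⁻¹ * q.R = 1 := inv_mul_cancel₀ hR0.ne'
  have n0 : (0 : ℝ) ≤ n := Nat.cast_nonneg n
  have e3 := hq.ε3
  refine ⟨univ, _, _, _, isOpen_univ, mem_univ _, (rg_ng ok.rg (by norm_num) hq.ε0 hR0 isOpen_univ
    hq.ε1 hq.ε2).1, ?_, ?_, ?_, ?_⟩
  · nlinarith [mul_nonneg n0 hce]
  · nlinarith [mul_nonneg n0 hce]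
  · calc cT n * q.ε * q.R⁻¹ * ‖dif z‖ ≤ cT n * q.ε * q.R⁻¹ * (8 / q.σ * q.R) :=
          mul_le_mul_of_nonneg_left hd (by positivity)
      _ = cT n * q.ε * (8 / q.σ) * (q.R⁻¹ * q.R) := by ring
      _ ≤ 1 := by rw [hRi, mul_one]; exact hq.ε4
  · calc cT n * q.ε * q.R⁻¹ ^ 2 * ‖dif z‖ ^ 2 ≤ cT n * q.ε * q.R⁻¹ ^ 2 * (8 / q.σ * q.R) ^ 2 := by
          gcongr
      _ = cT n * q.ε * (8 / q.σ) ^ 2 * (q.R⁻¹ * q.R) ^ 2 := by ring
      _ ≤ 1 := by rw [hRi, one_pow, mul_one]; exact hq.ε5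

/-- The constant of the derivatives of `u`. -/
def fwB (n : ℕ) (q : Cst) : ℝ := 30 * fwA n q ^ 4

theorem FwQ.A1 (hq : FwQ n q) : 1 ≤ fwA n q := (fwA_spec hq.hn hq.σ0 hq.σ1 hq.e0 hq.c0).A1

theorem FwQ.AB (hq : FwQ n q) : fwA n q ≤ fwB n q := by
  have h := hq.A1
  have h1 : fwA n q ^ 1 ≤ fwA n q ^ 4 := pow_le_pow_right₀ h (by norm_num)
  rw [pow_one] at h1
  unfold fwB
  linarith

theorem FwQ.B1 (hq : FwQ n q) : 1 ≤ fwB n q := hq.A1.trans hq.AB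

theorem FwQ.fk (hq : FwQ n q) : FwK n q.σ q.e₁ q.c₀ q.L (fwB n q) :=
  (fwA_spec hq.hn hq.σ0 hq.σ1 hq.e0 hq.c0).mono hq.AB

theorem FwQ.ju (hq : FwQ n q) (ok : PkOk q d) (h1 : ‖z.1‖ ≤ 4 / q.σ * q.R)
    (h2 : ‖z.2‖ ≤ 4 / q.σ * q.R) : J (d.u q) z (fwB n q) (fwB n q) := by
  have k := fwA_spec hq.hn hq.σ0 hq.σ1 hq.e0 hq.c0
  have hm : ‖mid z‖ ≤ 4 / q.σ * q.R := by
    unfold mid
    rw [norm_smul, Real.norm_eq_abs, abs_of_pos (by norm_num : (0 : ℝ) < 1 / 2)]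
    have := norm_add_le z.1 z.2
    linarith
  have hl : ∀ x : V n, ‖x‖ ≤ 4 / q.σ * q.R → J d.l x (fwA n q) (fwA n q) := fun x hx => by
    rw [ok.lev.lit]
    exact k.lv q.R d.kap d.Gs hq.R1 x hx
  have cχ : B2 (fwA n q) (d.F q).χ := by
    have e : (d.F q).χ = chi0 := ok.eχ
    rw [e]
    exact ⟨chi0_B2.sm, fun s => (chi0_B2.b1 s).trans k.ch, fun s => (chi0_B2.b2 s).trans k.ch⟩
  have cμ : B2 (fwA n q) (d.F q).μ := by
    have h := muc_B2 ok hq.R1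
    exact ⟨h.sm, fun s => (h.b1 s).trans k.mu, fun s => (h.b2 s).trans k.mu⟩
  refine uJ (F := d.F q) hq.A1 zero_le_one (hq.gz ok h1 h2) k.g1 (hl _ h1) (hl _ h2) (hl _ hm) cχ cμ
    (fun s => ?_) (fun s => ?_) (fun s hs => ?_)
  · have e : (d.F q).χ = chi0 := ok.eχ
    rw [e]
    exact chi0_le s
  · have : |d.μc q s| ≤ 1 / 8 := (Pk.μc_abs d q s).trans (ok.ph.μb s)
    exact this.trans (by norm_num)
  · exact ok.χ0 s hs

/-! ## The slope -/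

theorem FwQ.N0 (ok : PkOk q d) (hM : 0 ≤ q.M₀) (u : ℝ) : 0 ≤ deriv d.Φ u :=
  (hM.trans (ok.ph.isΦ.n1 u)).trans (ok.top.l1 u)

theorem FwQ.K0 (hq : FwQ n q) (ok : PkOk q d) (hM : 0 ≤ q.M₀) (u : ℝ) :
    |deriv (deriv d.Φ) u| ≤ fwB n q * deriv d.Φ u := by
  rw [abs_of_pos (ok.top.k0 u)]
  exact (ok.top.k2 u).trans (mul_le_mul_of_nonneg_right hq.fk.kl (FwQ.N0 ok hM u))

theorem FwQ.M0 (hq : FwQ n q) (hc : 0 < q.c') : 0 ≤ q.M₀ := by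
  have h := hq.rd
  unfold Cst.r₁ at h
  have he := Real.exp_pos (-1)
  by_contra hM
  have h1 : q.c' * q.M₀ ≤ 0 := mul_nonpos_of_nonneg_of_nonpos hc.le (not_le.1 hM).le
  have h2 : q.c' * q.M₀ / 2 * Real.exp (-1) ≤ 0 := mul_nonpos_of_nonpos_of_nonneg (by linarith) he.le
  linarith

/-- The final constant. -/
def fwC (n : ℕ) (q : Cst) : ℝ := 80 * fwB n q ^ 6

theorem FwQ.C1 (hq : FwQ n q) : 1 ≤ fwC n q := by
  have := one_le_pow₀ (n := 6) hq.B1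
  unfold fwC
  linarith

/-- **Near the diagonal.** -/
theorem FwQ.near (hq : FwQ n q) (ok : PkOk q d) (hM : 0 ≤ q.M₀) (h1 : ‖z.1‖ ≤ 4 / q.σ * q.R)
    (h2 : ‖z.2‖ ≤ 4 / q.σ * q.R) (hr : d.r2 z ≤ 4) :
    J (WW (d.F q) d.l (gi d.s₁)) z (fwC n q * (d.N q z + d.E q z * √(d.r2 z)))
      (fwC n q * (d.N q z + d.E q z)) := by
  have k := hq.fk
  have B1 := hq.B1
  have hN : 0 ≤ deriv (d.F q).Φ (uu (d.F q) d.l (gi d.s₁) z) := FwQ.N0 ok hM _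
  have h := wwN (z := z) (K := fwB n q * deriv d.Φ (d.u q z)) ok.ok ⟨k.s0, k.s1, k.s2, hq.rd⟩ rfl
    B1 zero_le_one (hq.gz ok h1 h2) k.g1 (hq.ju ok h1 h2) hr hN (hq.K0 ok hM _)
  have E0 : 0 < d.E q z := Real.exp_pos _
  have r0 := Real.sqrt_nonneg (d.r2 z)
  have hN' : 0 ≤ d.N q z := hN
  obtain ⟨B, hB⟩ : ∃ B, B = fwB n q := ⟨_, rfl⟩
  have e1 : fwC n q = 80 * B ^ 6 := by rw [hB]; rfl
  rw [← hB] at h B1
  rw [e1]
  refine h.mono ?_ ?_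
  · have p : B ^ 2 ≤ B ^ 6 := pow_le_pow_right₀ B1 (by norm_num)
    change 5 * B ^ 2 * (d.N q z + d.E q z * √(d.r2 z)) ≤ _
    have h0 : 0 ≤ d.N q z + d.E q z * √(d.r2 z) := by positivity
    have q1 := mul_le_mul_of_nonneg_right p h0
    have q2 : 0 ≤ B ^ 6 * (d.N q z + d.E q z * √(d.r2 z)) := by positivity
    nlinarith
  · have p : B ^ 4 ≤ B ^ 6 := pow_le_pow_right₀ B1 (by norm_num)
    have p' : B ^ 5 ≤ B ^ 6 := pow_le_pow_right₀ B1 (by norm_num)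
    change 40 * B ^ 4 * (d.N q z + B * d.N q z + d.E q z) ≤ _
    have q1 := mul_le_mul_of_nonneg_right p hN'
    have q2 := mul_le_mul_of_nonneg_right p' hN'
    have q3 := mul_le_mul_of_nonneg_right p E0.le
    have q4 : 0 ≤ B ^ 6 * d.E q z := by positivity
    nlinarith

theorem lm_d {e₁ : ℝ} (he : 0 < e₁) {t : ℝ} (ht : 0 < t) :
    HasDerivAt (fun t => Real.log (prS e₁ (t ^ 2))) (prL e₁ t) t := by
  have h1 := (pp_ok he).hasDerivAt_S ht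
  have h2 : 0 < prS e₁ (t ^ 2) := (pp_ok he).S_pos (by positivity)
  have h3 := h1.log h2.ne'
  refine h3.congr_deriv ?_
  change H644.Lf 2 Li e₁ rp dp t * prS e₁ (t ^ 2) / prS e₁ (t ^ 2) = _
  rw [mul_div_assoc, div_self h2.ne', mul_one]
  rfl

/-- **Away from the diagonal.** -/
theorem FwQ.off (hq : FwQ n q) (ok : PkOk q d) (hM : 0 ≤ q.M₀) (h1 : ‖z.1‖ ≤ 4 / q.σ * q.R)
    (h2 : ‖z.2‖ ≤ 4 / q.σ * q.R) (hr : q.c₀ / 2 ≤ √(d.r2 z)) :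
    J (WW (d.F q) d.l (gi d.s₁)) z (fwC n q * (d.N q z + d.Gf q z))
      (fwC n q * (d.N q z + d.Gf q z)) := by
  have k := hq.fk
  have B1 := hq.B1
  have hc2 : 0 < q.c₀ / 2 := by have := hq.c0; linarith
  have r0 : 0 < √(d.r2 z) := hc2.trans_le hr
  have s0 : 0 < d.r2 z := Real.sqrt_pos.1 r0
  have hN : 0 ≤ deriv (d.F q).Φ (uu (d.F q) d.l (gi d.s₁) z) := FwQ.N0 ok hM _
  obtain ⟨lm, hlm⟩ : ∃ lm : ℝ → ℝ, lm = fun t => Real.log (prS q.e₁ (t ^ 2)) := ⟨_, rfl⟩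
  have el : lm √(d.r2 z) = Real.log (prS q.e₁ (d.r2 z)) := by
    rw [hlm]
    simp only
    rw [Real.sq_sqrt s0.le]
  have hG : q.D 1 0 (uu (d.F q) d.l (gi d.s₁) z + lm √(d.r2 z), √(d.r2 z)) = d.Gf q z := by
    rw [el]
    rfl
  have bd : ∀ i j, i ≤ 2 → j ≤ 2 → 1 ≤ i + j →
      |q.D i j (uu (d.F q) d.l (gi d.s₁) z + lm √(d.r2 z), √(d.r2 z))| ≤
        fwB n q * d.Gf q z := by
    intro i j hi hj hij
    have hp := ok.sl.G_pos (uu (d.F q) d.l (gi d.s₁) z + lm √(d.r2 z), √(d.r2 z)) r0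
    have := ok.sl.bd1 i j (uu (d.F q) d.l (gi d.s₁) z + lm √(d.r2 z), √(d.r2 z)) r0 hij
    rw [hG] at this hp
    exact this.trans (mul_le_mul_of_nonneg_right (k.sl i j hi hj) hp.le)
  have G0 : 0 ≤ d.Gf q z := by
    have hp := ok.sl.G_pos (uu (d.F q) d.l (gi d.s₁) z + lm √(d.r2 z), √(d.r2 z)) r0
    rw [hG] at hp
    exact hp.le
  have dl : ∀ t, 0 < t → HasDerivAt lm (prL q.e₁ t) t := fun t ht => by
    rw [hlm]
    exact lm_d hq.e0 ht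
  have sl : ContDiffAt ℝ 2 lm √(d.r2 z) := by
    rw [hlm]
    have s1 : ContDiff ℝ ∞ (prS q.e₁) := (pp_ok hq.e0).contDiff_Ph
    have s2 : ContDiff ℝ ∞ fun t : ℝ => prS q.e₁ (t ^ 2) := s1.comp (contDiff_id.pow 2)
    refine (s2.contDiffAt.log ?_).of_le two_le
    exact ((pp_ok hq.e0).S_pos (by positivity)).ne'
  have dL : HasDerivAt (prL q.e₁) (deriv (prL q.e₁) √(d.r2 z)) √(d.r2 z) :=
    ((pp_ok hq.e0).hasDerivAt_Lf r0).differentiableAt.hasDerivAt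
  have hl := k.pl _ hr
  have g2 : 3 * cR n 1 ≤ fwB n q := by
    have := k.g1
    have := cR_nonneg n (zero_le_one (α := ℝ))
    linarith
  have h := wwO (z := z) (K := fwB n q * deriv d.Φ (d.u q z)) (G := d.Gf q z) (D := q.D)
    (lm := lm) (lm' := prL q.e₁) ok.ok rfl B1 zero_le_one (hq.gz ok h1 h2) (hq.ju ok h1 h2)
    hc2 hr g2 k.g2 hN (hq.K0 ok hM _) rfl ok.sl.sm ok.sl.hd
    (Eventually.of_forall fun t => by rw [hlm]; rfl) sl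
    (by filter_upwards [Ioi_mem_nhds r0] with t ht using dl t ht) dL hl.1 hl.2
    (bd 1 0 (by norm_num) (by norm_num) (by norm_num))
    (bd 0 1 (by norm_num) (by norm_num) (by norm_num))
    (bd 2 0 (by norm_num) (by norm_num) (by norm_num))
    (bd 1 1 (by norm_num) (by norm_num) (by norm_num))
    (bd 0 2 (by norm_num) (by norm_num) (by norm_num))
  have hN' : 0 ≤ d.N q z := hN
  obtain ⟨B, hB⟩ : ∃ B, B = fwB n q := ⟨_, rfl⟩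
  have e1 : fwC n q = 80 * B ^ 6 := by rw [hB]; rfl
  rw [← hB] at h B1
  rw [e1]
  refine h.mono ?_ ?_
  · have p : B ^ 3 ≤ B ^ 6 := pow_le_pow_right₀ B1 (by norm_num)
    change 4 * B ^ 3 * (d.N q z + d.Gf q z) ≤ _
    have h0 : 0 ≤ d.N q z + d.Gf q z := by positivity
    have q1 := mul_le_mul_of_nonneg_right p h0
    have q2 : 0 ≤ B ^ 6 * (d.N q z + d.Gf q z) := by positivity
    nlinarith
  · have p : B ^ 5 ≤ B ^ 6 := pow_le_pow_right₀ B1 (by norm_num)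
    change 20 * B ^ 5 * (d.N q z + B * d.N q z + d.Gf q z) ≤ _
    have q1 := mul_le_mul_of_nonneg_right p hN'
    have q3 := mul_le_mul_of_nonneg_right p G0
    have q2 : B ^ 5 * (B * d.N q z) = B ^ 6 * d.N q z := by ring
    have q4 : 0 ≤ B ^ 6 * d.Gf q z := by positivity
    have q5 : 0 ≤ B ^ 6 * d.N q z := by positivity
    nlinarith

end Vale.Agent.P088.R2.H349.EP
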