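import Vale.Agent.P088.R2.H31.EP.PackL

/-!
# P088, stage 3, EST': the regularity of the functions of one variable
-/

open Set Filter
open scoped ContDiff Topology

noncomputable section

namespace Vale.Agent.P088.R2.H349.EP

open Vale.Agent.P088.R2.H31.EP

/-- The parameters of the profile are admissible. -/
theorem pp_ok {e₁ : ℝ} (h : 0 < e₁) : H644.PP 2 Li e₁ rp dp where
  θ0 := two_pos
  L0 := by unfold Li; norm_num
  ε0 := h
  r0 := by unfold rp; norm_num
  δ0 := by unfold dp; norm_num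
  le := by
    have h1 : Real.exp dp ≤ Real.exp 1 := Real.exp_le_exp.2 (by unfold dp; norm_num)
    have h2 : Real.exp dp < 5 / 2 := by
      have h3 : Real.exp dp ≤ Real.exp (1 / 2) := Real.exp_le_exp.2 (by unfold dp; norm_num)
      have h4 : Real.exp (1 / 2) ^ 2 = Real.exp 1 := by
        rw [← Real.exp_nat_mul]; congr 1; push_cast; ring
      have h5 := Real.exp_one_lt_d9
      have h6 := Real.exp_pos (1 / 2)
      nlinarith
    unfold Li
    linarith

theorem prS_zero (e₁ : ℝ) : prS e₁ 0 = 0 := by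
  unfold prS H644.Ph H644.Fs
  simp

variable {n : ℕ}

/-- The functions of one variable of the weight are regular. -/
theorem fu_ok' {q : Cst} {d : Pk n} {ε N c' τ : ℝ} {Cb : ℕ → ℕ → ℝ}
    {u : ℝ × ℝ → ℝ} (he : 0 < q.e₁) (hr : 0 < q.r₁) (hΦ : ContDiff ℝ ∞ d.Φ)
    (hμ : ContDiff ℝ ∞ d.μ) (hχ : ContDiff ℝ ∞ d.χ)
    (hs : H768.W.IsSlow ε N c' τ q.r₁ Cb u q.D) :
    (d.F q).Ok (q.r₁ * Real.exp (-1)) where
  Φs := hΦ
  μs := Pk.μc_smooth d q hμ
  χs := hχ
  Ss := (pp_ok he).contDiff_Ph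
  S0 := prS_zero _
  Sp := fun _ h => (pp_ok he).S_pos h
  Ψs := hs.sm 0 0
  Ψi := fun f r h0 h1 => by
    have h2 := hs.inn 0 0 (f, r) h0 h1
    rw [if_pos rfl] at h2
    exact h2
  Ψp := fun f r h0 => (hs.psi_pos (f, r) h0).le
  Xs := contDiff_const
  rc0 := by
    change 0 < q.r₁ * Real.exp (-1) / 2
    have := Real.exp_pos (-1)
    positivity
  rcd := by
    change q.r₁ * Real.exp (-1) / 2 < q.r₁ * Real.exp (-1)
    have : 0 < q.r₁ * Real.exp (-1) := mul_pos hr (Real.exp_pos _)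
    linarith

/-- The functions of one variable of the weight are regular. -/
theorem fu_ok {q : Cst} {d : Pk n} (he : 0 < q.e₁) (hc : 0 < q.c') (hM : 0 < q.M₀)
    (hΦ : ContDiff ℝ ∞ d.Φ) (hμ : ContDiff ℝ ∞ d.μ) (hχ : ContDiff ℝ ∞ d.χ)
    (hs : H768.W.IsSlow q.es q.M₀ q.c' q.τ q.r₁ slB (H768.W.uu q.τ q.r₁) q.D) :
    (d.F q).Ok (q.r₁ * Real.exp (-1)) :=
  fu_ok' he (by unfold Cst.r₁; positivity) hΦ hμ hχ hs

end Vale.Agent.P088.R2.H349.EP
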