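import Vale.Agent.P088.R2.H349.EP.J2
import Vale.Agent.P088.R2.H31.EP.Wgt

/-!
# P088, stage 3, EST': the derivatives of the weight, abstract form
-/

open Set Filter
open scoped ContDiff Topology

noncomputable section

namespace Vale.Agent.P088.R2.H349.EP

variable {E : Type*} [NormedAddCommGroup E] [NormedSpace ℝ E]

/-- Near the diagonal: `Φ(u) + e^u S(s)`. -/
theorem J.near {u s : E → ℝ} {z : E} {Φ S S' S'' : ℝ → ℝ} {A r K : ℝ} (hA : 1 ≤ A) (hr : 0 ≤ r)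
    (hr2 : r ≤ 2) (hu : J u z A A) (hs : J s z (A * r) A) (sΦ : ContDiff ℝ ∞ Φ)
    (hN : 0 ≤ deriv Φ (u z)) (hK : |deriv (deriv Φ) (u z)| ≤ K) (sS : ContDiff ℝ ∞ S)
    (d1 : ∀ t, HasDerivAt S (S' t) t) (d2 : ∀ t, HasDerivAt S' (S'' t) t)
    (h0 : |S (s z)| ≤ A * r ^ 2) (h1 : |S' (s z)| ≤ A) (h2 : |S'' (s z)| ≤ A) :
    J (fun y => Φ (u y) + Real.exp (u y) * S (s y)) z
      (5 * A ^ 2 * (deriv Φ (u z) + Real.exp (u z) * r))
      (40 * A ^ 4 * (deriv Φ (u z) + K + Real.exp (u z))) := by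
  have A0 : 0 ≤ A := by linarith
  have E0 := (Real.exp_pos (u z)).le
  have K0 : 0 ≤ K := (abs_nonneg _).trans hK
  have dΦ : ∀ t, HasDerivAt Φ (deriv Φ t) t := fun t =>
    (sΦ.differentiable (by simp) t).hasDerivAt
  have sΦ' : ContDiff ℝ ∞ (deriv Φ) := ((contDiff_infty_iff_deriv (𝕜 := ℝ)).1 sΦ).2
  have ddΦ : HasDerivAt (deriv Φ) (deriv (deriv Φ) (u z)) (u z) :=
    (sΦ'.differentiable (by simp) _).hasDerivAt
  have j1 : J (fun y => Φ (u y)) z (deriv Φ (u z) * A) (deriv Φ (u z) * A + K * A ^ 2) :=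
    hu.comp1 (sΦ.contDiffAt.of_le two_le) (Eventually.of_forall dΦ) ddΦ
      (le_of_eq (abs_of_nonneg hN)) hK
  have j2 : J (fun y => Real.exp (u y)) z (Real.exp (u z) * A)
      (Real.exp (u z) * A + Real.exp (u z) * A ^ 2) :=
    hu.comp1 Real.contDiff_exp.contDiffAt (Eventually.of_forall Real.hasDerivAt_exp)
      (Real.hasDerivAt_exp _) (le_of_eq (abs_of_nonneg E0)) (le_of_eq (abs_of_nonneg E0))
  have j3 : J (fun y => S (s y)) z (A * (A * r)) (A * A + A * (A * r) ^ 2) :=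
    hs.comp1 (sS.contDiffAt.of_le two_le) (Eventually.of_forall d1) (d2 _) h1 h2
  have j4 := j1.add (j2.mul j3 (p := Real.exp (u z)) (q := A * r ^ 2)
    (le_of_eq (abs_of_nonneg E0)) h0)
  obtain ⟨e, he⟩ : ∃ e, e = Real.exp (u z) := ⟨_, rfl⟩
  obtain ⟨N, hN'⟩ : ∃ N, N = deriv Φ (u z) := ⟨_, rfl⟩
  rw [← he, ← hN'] at j4 ⊢
  rw [← hN'] at hN
  rw [← he] at E0
  have P2 : A ≤ A ^ 2 := by nlinarith
  have P3 : A ^ 2 ≤ A ^ 3 := by nlinarith [sq_nonneg A]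
  have P4 : A ^ 3 ≤ A ^ 4 := by nlinarith [pow_nonneg A0 3]
  have r4 : r ^ 2 ≤ 2 * r := by nlinarith
  have r5 : r ^ 2 ≤ 4 := by nlinarith
  refine j4.mono ?_ ?_
  · have k1 : N * A ≤ N * A ^ 2 := mul_le_mul_of_nonneg_left P2 hN
    have k2 : A * r ^ 2 * (e * A) ≤ 2 * (A ^ 2 * (e * r)) := by
      have : A ^ 2 * e * r ^ 2 ≤ A ^ 2 * e * (2 * r) :=
        mul_le_mul_of_nonneg_left r4 (by positivity)
      linarith
    have k3 : 0 ≤ A ^ 2 * (e * r) := by positivity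
    have k4 : 0 ≤ A ^ 2 * N := by positivity
    nlinarith
  · have k1 : N * A ≤ A ^ 4 * N := by
      have := mul_le_mul_of_nonneg_left (P2.trans (P3.trans P4)) hN
      linarith
    have k2 : K * A ^ 2 ≤ A ^ 4 * K := by
      have := mul_le_mul_of_nonneg_left (P3.trans P4) K0
      linarith
    have q : ∀ a b c : ℝ, 0 ≤ a → a ≤ A ^ 4 → 0 ≤ b → b ≤ c → e * (a * b) ≤ c * (A ^ 4 * e) := by
      intro a b c ha ha' hb hbc
      have h1 : a * b ≤ A ^ 4 * c := mul_le_mul ha' hbc hb (by positivity)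
      have := mul_le_mul_of_nonneg_left h1 E0
      linarith
    have t1 : A * r ^ 2 * (e * A + e * A ^ 2) ≤ 8 * (A ^ 4 * e) := by
      have a1 := q (A ^ 2) (r ^ 2) 4 (by positivity) (P3.trans P4) (by positivity) r5
      have a2 := q (A ^ 3) (r ^ 2) 4 (by positivity) P4 (by positivity) r5
      nlinarith
    have t2 : A * (A * r) * (e * A) ≤ 2 * (A ^ 4 * e) := by
      have a1 := q (A ^ 3) r 2 (by positivity) P4 hr hr2
      nlinarith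
    have t3 : e * (A * A + A * (A * r) ^ 2) ≤ 5 * (A ^ 4 * e) := by
      have a1 := q (A ^ 2) 1 1 (by positivity) (P3.trans P4) zero_le_one le_rfl
      have a2 := q (A ^ 3) (r ^ 2) 4 (by positivity) P4 (by positivity) r5
      nlinarith
    have t4 : e * A * (A * (A * r)) ≤ 2 * (A ^ 4 * e) := by
      have a1 := q (A ^ 3) r 2 (by positivity) P4 hr hr2
      nlinarith
    have s0 : 0 ≤ A ^ 4 * e := by positivity
    have s1 : 0 ≤ A ^ 4 * N := by positivity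
    have s2 : 0 ≤ A ^ 4 * K := by positivity
    nlinarith

/-- Away from the diagonal: `Φ(u) + Ψ(u + λ(r), r)`. -/
theorem J.off {u r : E → ℝ} {z : E} {Φ lm lm' : ℝ → ℝ} {lm'' : ℝ} {D : ℕ → ℕ → ℝ × ℝ → ℝ}
    {O : Set (ℝ × ℝ)} (hO : IsOpen O) (sm : ContDiffOn ℝ ∞ (D 0 0) O)
    (hd : ∀ i j, ∀ x ∈ O, HasFDerivAt (D i j) (H768.W.lf (D (i + 1) j x) (D i (j + 1) x)) x)
    {A K G : ℝ} (hA : 1 ≤ A) (hu : J u z A A) (hs : J r z A A) (sΦ : ContDiff ℝ ∞ Φ)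
    (hN : 0 ≤ deriv Φ (u z)) (hK : |deriv (deriv Φ) (u z)| ≤ K) (sl : ContDiffAt ℝ 2 lm (r z))
    (d1 : ∀ᶠ t in 𝓝 (r z), HasDerivAt lm (lm' t) t) (d2 : HasDerivAt lm' lm'' (r z))
    (h1 : |lm' (r z)| ≤ A) (h2 : |lm''| ≤ A) (hz : (u z + lm (r z), r z) ∈ O)
    (h10 : |D 1 0 (u z + lm (r z), r z)| ≤ A * G) (h01 : |D 0 1 (u z + lm (r z), r z)| ≤ A * G)
    (h20 : |D 2 0 (u z + lm (r z), r z)| ≤ A * G) (h11 : |D 1 1 (u z + lm (r z), r z)| ≤ A * G)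
    (h02 : |D 0 2 (u z + lm (r z), r z)| ≤ A * G) :
    J (fun y => Φ (u y) + D 0 0 (u y + lm (r y), r y)) z
      (4 * A ^ 3 * (deriv Φ (u z) + G))
      (20 * A ^ 5 * (deriv Φ (u z) + K + G)) := by
  have A0 : 0 ≤ A := by linarith
  have K0 : 0 ≤ K := (abs_nonneg _).trans hK
  have G0 : 0 ≤ G := by
    have : 0 ≤ A * G := (abs_nonneg _).trans h10
    by_contra hc
    have : A * G < 0 := mul_neg_of_pos_of_neg (by linarith) (not_le.1 hc)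
    linarith
  have dΦ : ∀ t, HasDerivAt Φ (deriv Φ t) t := fun t =>
    (sΦ.differentiable (by simp) t).hasDerivAt
  have sΦ' : ContDiff ℝ ∞ (deriv Φ) := ((contDiff_infty_iff_deriv (𝕜 := ℝ)).1 sΦ).2
  have ddΦ : HasDerivAt (deriv Φ) (deriv (deriv Φ) (u z)) (u z) :=
    (sΦ'.differentiable (by simp) _).hasDerivAt
  have j1 : J (fun y => Φ (u y)) z (deriv Φ (u z) * A) (deriv Φ (u z) * A + K * A ^ 2) :=
    hu.comp1 (sΦ.contDiffAt.of_le two_le) (Eventually.of_forall dΦ) ddΦ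
      (le_of_eq (abs_of_nonneg hN)) hK
  have j2 : J (fun y => lm (r y)) z (A * A) (A * A + A * A ^ 2) :=
    hs.comp1 sl d1 d2 h1 h2
  have j3 := hu.add j2
  have j4 := j1.add (J.comp2 hO sm hd j3 hs hz h10 h01 h20 h11 h02)
  obtain ⟨N, hN'⟩ : ∃ N, N = deriv Φ (u z) := ⟨_, rfl⟩
  rw [← hN'] at j4 ⊢
  rw [← hN'] at hN
  have P2 : A ≤ A ^ 2 := by nlinarith
  have P3 : A ^ 2 ≤ A ^ 3 := by nlinarith [sq_nonneg A]
  have P4 : A ^ 3 ≤ A ^ 4 := by nlinarith [pow_nonneg A0 3]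
  have P5 : A ^ 4 ≤ A ^ 5 := by nlinarith [pow_nonneg A0 4]
  have N2 : A ^ 2 * N ≤ A ^ 3 * N := mul_le_mul_of_nonneg_right P3 hN
  have N1 : A * N ≤ A ^ 2 * N := mul_le_mul_of_nonneg_right P2 hN
  have N3 : A ^ 3 * N ≤ A ^ 4 * N := mul_le_mul_of_nonneg_right P4 hN
  have N4 : A ^ 4 * N ≤ A ^ 5 * N := mul_le_mul_of_nonneg_right P5 hN
  have K2 : A ^ 2 * K ≤ A ^ 3 * K := mul_le_mul_of_nonneg_right P3 K0
  have K3 : A ^ 3 * K ≤ A ^ 4 * K := mul_le_mul_of_nonneg_right P4 K0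
  have K4 : A ^ 4 * K ≤ A ^ 5 * K := mul_le_mul_of_nonneg_right P5 K0
  have G2 : A ^ 2 * G ≤ A ^ 3 * G := mul_le_mul_of_nonneg_right P3 G0
  have G3 : A ^ 3 * G ≤ A ^ 4 * G := mul_le_mul_of_nonneg_right P4 G0
  have G4 : A ^ 4 * G ≤ A ^ 5 * G := mul_le_mul_of_nonneg_right P5 G0
  have N0 : 0 ≤ A * N := by positivity
  have K00 : 0 ≤ A ^ 2 * K := by positivity
  have G00 : 0 ≤ A ^ 2 * G := by positivity
  refine j4.mono ?_ ?_
  · nlinarith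
  · nlinarith

end Vale.Agent.P088.R2.H349.EP
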