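import Vale.Agent.P088.R2.H349.EP.FW0
import Vale.Agent.P088.R2.H464.EP.SymU

/-!
# P088, stage 3, EST': the derivatives of `r²`, `r`, `u`
-/

open Set Filter
open scoped ContDiff Topology

noncomputable section

namespace Vale.Agent.P088.R2.H349.EP

open Vale.Agent.P088.LR Vale.Agent.P088.HY Vale.Agent.P088.R2.H961.GW
open Vale.Agent.P088.R2.H464.Cu Vale.Agent.P088.R2.H31.EP

variable {n : ℕ} {O : Set (V n)} {ε δ₁ δ₂ A B c : ℝ} {g : MF n} {z : VV n} {l : V n → ℝ}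

theorem nd2 (w : VV n) : ‖dif w‖ ≤ 2 * ‖w‖ := by
  unfold dif
  have h1 := norm_fst_le w
  have h2 := norm_snd_le w
  have := norm_sub_le w.1 w.2
  linarith

theorem nm1 (w : VV n) : ‖mid w‖ ≤ ‖w‖ := by
  unfold mid
  have h1 := norm_fst_le w
  have h2 := norm_snd_le w
  have := norm_add_le w.1 w.2
  rw [norm_smul, Real.norm_eq_abs, abs_of_pos (by norm_num : (0 : ℝ) < 1 / 2)]
  linarith

/-- The constant of the derivatives of `ρ`. -/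
def cR (n : ℕ) (B : ℝ) : ℝ := 8 * (n : ℝ) ^ 2 + 4 * (n : ℝ) ^ 3 * B + (n : ℝ) ^ 4 * B

theorem cR_nonneg (n : ℕ) (hB : 0 ≤ B) : 0 ≤ cR n B := by unfold cR; positivity

theorem sm_rqAt (hO : IsOpen O) (ng : Nr O ε δ₁ δ₂ g) (hm : mid z ∈ O) :
    ContDiffAt ℝ ∞ (rq g) z := by
  have ho : IsOpen {z : VV n | mid z ∈ O} := hO.preimage contDiff_mid.continuous
  exact (sm_rq ng.sm z hm).contDiffAt (ho.mem_nhds hm)

theorem rqJ (hO : IsOpen O) (ng : Nr O ε δ₁ δ₂ g) (hε : ε ≤ 1) (hm : mid z ∈ O)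
    (h1 : δ₁ * ‖dif z‖ ≤ B) (h2 : δ₂ * ‖dif z‖ ^ 2 ≤ B) :
    J (rq g) z (cR n B * ‖dif z‖) (cR n B) := by
  have q0 := norm_nonneg (dif z)
  rcases Nat.eq_zero_or_pos n with h0 | hn
  · subst h0
    have e : rq g = fun _ => 0 := by
      funext y
      simp [rq, bf]
    have k : ‖dif z‖ = 0 := by
      rw [Subsingleton.elim (dif z) 0, norm_zero]
    rw [e, k]
    refine (J.const 0).mono ?_ ?_ <;> simp [cR]
  have d1 : 0 ≤ δ₁ := (abs_nonneg _).trans (ng.b1 _ hm ⟨0, hn⟩ ⟨0, hn⟩ ⟨0, hn⟩)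
  have d2 : 0 ≤ δ₂ := (abs_nonneg _).trans (ng.b2 _ hm ⟨0, hn⟩ ⟨0, hn⟩ ⟨0, hn⟩ ⟨0, hn⟩)
  have B0 : 0 ≤ B := (mul_nonneg d1 q0).trans h1
  have hd : ∀ i j, DifferentiableAt ℝ (fun x => g x i j) (mid z) := fun i j =>
    df_of hO (ng.sm i j) hm
  refine ⟨(sm_rqAt hO ng hm).of_le two_le, fun w => ?_, fun w w' => ?_⟩
  · rw [(rq_d hd ng.sy w).e]
    have k1 : |bf (g (mid z)) (dif w) (dif z)| ≤ n ^ 2 * (2 * ‖dif w‖ * ‖dif z‖) :=
      bf_le (by norm_num) (fun i j => ng.le2 hε hm i j) _ _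
    have k2 : |bf (dg (mid w) g (mid z)) (dif z) (dif z)| ≤
        n ^ 2 * ((n * (‖mid w‖ * δ₁)) * ‖dif z‖ * ‖dif z‖) :=
      bf_le (by positivity) (fun i j => ng.dg hm (mid w) i j) _ _
    have w0 := norm_nonneg w
    have k3 : (n : ℝ) ^ 2 * (2 * ‖dif w‖ * ‖dif z‖) ≤ 4 * n ^ 2 * (‖w‖ * ‖dif z‖) := by
      have := nd2 w
      calc (n : ℝ) ^ 2 * (2 * ‖dif w‖ * ‖dif z‖) ≤ n ^ 2 * (2 * (2 * ‖w‖) * ‖dif z‖) := by gcongr
        _ = _ := by ring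
    have k4 : (n : ℝ) ^ 2 * ((n * (‖mid w‖ * δ₁)) * ‖dif z‖ * ‖dif z‖) ≤
        n ^ 3 * B * (‖w‖ * ‖dif z‖) := by
      calc (n : ℝ) ^ 2 * ((n * (‖mid w‖ * δ₁)) * ‖dif z‖ * ‖dif z‖) =
            n ^ 3 * (δ₁ * ‖dif z‖) * (‖mid w‖ * ‖dif z‖) := by ring
        _ ≤ n ^ 3 * B * (‖w‖ * ‖dif z‖) := by
          have := nm1 w
          gcongr
    refine (abs_add_le _ _).trans ?_
    rw [abs_mul, abs_of_pos (by norm_num : (0 : ℝ) < 1 / 2)]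
    unfold cR
    have t1 : 0 ≤ (n : ℝ) ^ 2 * (‖w‖ * ‖dif z‖) := by positivity
    have t2 : 0 ≤ (n : ℝ) ^ 3 * B * (‖w‖ * ‖dif z‖) := by positivity
    have t3 : 0 ≤ (n : ℝ) ^ 4 * B * (‖w‖ * ‖dif z‖) := by positivity
    linarith
  · rw [(rq_dd hO ng.sm ng.sy w w' hm).e]
    have hw := norm_nonneg w
    have hw' := norm_nonneg w'
    have h1' : |bf (g (mid z)) (dif w) (dif w')| ≤ n ^ 2 * (2 * ‖dif w‖ * ‖dif w'‖) :=
      bf_le (by norm_num) (fun i j => ng.le2 hε hm i j) _ _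
    have hg1 : ∀ v : VV n, ∀ i j, |dg (mid v) g (mid z) i j| ≤ n * (‖v‖ * δ₁) := by
      intro v i j
      refine (ng.dg hm (mid v) i j).trans ?_
      have := nm1 v
      gcongr
    have hg2 : ∀ i j, |dg (mid w') (dg (mid w) g) (mid z) i j| ≤ n ^ 2 * (‖w‖ * ‖w'‖ * δ₂) := by
      intro i j
      refine (ng.dg2 hO hm (mid w) (mid w') i j).trans ?_
      have a1 := nm1 w
      have a2 := nm1 w'
      gcongr
    have b1 : (n : ℝ) ^ 2 * (2 * ‖dif w‖ * ‖dif w'‖) ≤ 8 * n ^ 2 * (‖w‖ * ‖w'‖) := by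
      have := nd2 w
      have := nd2 w'
      calc (n : ℝ) ^ 2 * (2 * ‖dif w‖ * ‖dif w'‖) ≤ n ^ 2 * (2 * (2 * ‖w‖) * (2 * ‖w'‖)) := by
            gcongr
        _ = _ := by ring
    have b2 : |bf (dg (mid w') g (mid z)) (dif w) (dif z)| ≤ 2 * n ^ 3 * B * (‖w‖ * ‖w'‖) := by
      refine (bf_le (c := n * (‖w'‖ * δ₁)) (by positivity) (hg1 w') _ _).trans ?_
      have := nd2 w
      calc (n : ℝ) ^ 2 * (n * (‖w'‖ * δ₁) * ‖dif w‖ * ‖dif z‖) =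
            n ^ 3 * (δ₁ * ‖dif z‖) * (‖dif w‖ * ‖w'‖) := by ring
        _ ≤ n ^ 3 * B * ((2 * ‖w‖) * ‖w'‖) := by gcongr
        _ = _ := by ring
    have b3 : |bf (dg (mid w) g (mid z)) (dif w') (dif z)| ≤ 2 * n ^ 3 * B * (‖w‖ * ‖w'‖) := by
      refine (bf_le (c := n * (‖w‖ * δ₁)) (by positivity) (hg1 w) _ _).trans ?_
      have := nd2 w'
      calc (n : ℝ) ^ 2 * (n * (‖w‖ * δ₁) * ‖dif w'‖ * ‖dif z‖) =
            n ^ 3 * (δ₁ * ‖dif z‖) * (‖w‖ * ‖dif w'‖) := by ring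
        _ ≤ n ^ 3 * B * (‖w‖ * (2 * ‖w'‖)) := by gcongr
        _ = _ := by ring
    have b4 : |bf (dg (mid w') (dg (mid w) g) (mid z)) (dif z) (dif z)| ≤
        n ^ 4 * B * (‖w‖ * ‖w'‖) := by
      refine (bf_le (c := n ^ 2 * (‖w‖ * ‖w'‖ * δ₂)) (by positivity) hg2 _ _).trans ?_
      calc (n : ℝ) ^ 2 * (n ^ 2 * (‖w‖ * ‖w'‖ * δ₂) * ‖dif z‖ * ‖dif z‖) =
            n ^ 4 * (δ₂ * ‖dif z‖ ^ 2) * (‖w‖ * ‖w'‖) := by ring
        _ ≤ _ := by gcongr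
    have b5 : |1 / 2 * bf (dg (mid w') (dg (mid w) g) (mid z)) (dif z) (dif z)| ≤
        1 / 2 * (n ^ 4 * B * (‖w‖ * ‖w'‖)) := by
      rw [abs_mul, abs_of_pos (by norm_num : (0 : ℝ) < 1 / 2)]
      linarith
    have t4 : 0 ≤ (n : ℝ) ^ 4 * B * (‖w‖ * ‖w'‖) := by positivity
    refine (abs_add_le _ _).trans ?_
    refine (add_le_add_left ((abs_add_le _ _).trans (add_le_add_left (abs_add_le _ _) _)) _).trans
      ?_
    unfold cR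
    linarith

/-- The hypotheses on the metric and the point. -/
structure Gz (B : ℝ) (g : MF n) (z : VV n) : Prop where
  ex : ∃ (O : Set (V n)) (ε δ₁ δ₂ : ℝ), IsOpen O ∧ mid z ∈ O ∧ Nr O ε δ₁ δ₂ g ∧ ε ≤ 1 ∧
    n * ε ≤ 1 / 2 ∧ δ₁ * ‖dif z‖ ≤ B ∧ δ₂ * ‖dif z‖ ^ 2 ≤ B

theorem Gz.r2_nonneg (h : Gz B g z) : 0 ≤ r2 g z := by
  obtain ⟨O, ε, δ₁, δ₂, -, hm, ng, -, h2, -, -⟩ := h.ex
  have := (rq_bd ng h2 hm).1
  have h0 : 0 ≤ dt (dif z) (dif z) := Finset.sum_nonneg fun i _ => mul_self_nonneg _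
  unfold r2
  linarith

theorem Gz.dif_le (h : Gz B g z) : ‖dif z‖ ≤ 3 * √(r2 g z) := by
  obtain ⟨O, ε, δ₁, δ₂, -, hm, ng, -, h2, -, -⟩ := h.ex
  rw [pi_norm_le_iff_of_nonneg (by positivity)]
  intro i
  rw [Real.norm_eq_abs]
  refine (H464.Cu.dif_le ng h2 hm i).trans (mul_le_mul_of_nonneg_left ?_ (by norm_num))
  refine Real.sqrt_le_sqrt ?_
  have := h.r2_nonneg
  unfold r2 at this ⊢
  linarith

theorem Gz.J (hB : 0 ≤ B) (h : Gz B g z) :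
    J (r2 g) z (6 * cR n B * √(r2 g z)) (6 * cR n B) := by
  obtain ⟨O, ε, δ₁, δ₂, hO, hm, ng, h1, h2, h3, h4⟩ := h.ex
  have k := (rqJ hO ng h1 hm h3 h4).cmul 2
  have c0 := cR_nonneg n hB
  refine k.mono ?_ ?_
  · rw [abs_of_pos (by norm_num : (0 : ℝ) < 2)]
    have := mul_le_mul_of_nonneg_left h.dif_le c0
    linarith
  · rw [abs_of_pos (by norm_num : (0 : ℝ) < 2)]
    linarith

/-- The derivatives of `r`. -/
theorem Gz.Jr (hB : 0 ≤ B) (h : Gz B g z) (hc : 0 < c) (hr : c ≤ √(r2 g z)) :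
    EP.J (fun z => √(r2 g z)) z (3 * cR n B) ((3 * cR n B + 9 * cR n B ^ 2) / c) := by
  have c0 := cR_nonneg n hB
  have r0 : 0 < √(r2 g z) := hc.trans_le hr
  have s0 : 0 < r2 g z := Real.sqrt_pos.1 r0
  have hd : ∀ t : ℝ, 0 < t → HasDerivAt Real.sqrt (1 / (2 * √t)) t := fun t ht =>
    Real.hasDerivAt_sqrt ht.ne'
  have hdd : HasDerivAt (fun t => 1 / (2 * √t)) (-(1 / (4 * √(r2 g z) ^ 3))) (r2 g z) := by
    have k := ((hd _ s0).const_mul 2).fun_inv (by positivity)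
    have e : (fun t => 1 / (2 * √t)) = fun t : ℝ => (2 * √t)⁻¹ := by
      funext t
      rw [one_div]
    rw [e]
    refine k.congr_deriv ?_
    field_simp
    ring
  have k := (h.J hB).comp1 (F := Real.sqrt) (F' := fun t => 1 / (2 * √t))
    (p := 1 / (2 * √(r2 g z))) (q := 1 / (4 * √(r2 g z) ^ 3)) (Real.contDiffAt_sqrt s0.ne')
    (by filter_upwards [Ioi_mem_nhds s0] with t ht using hd t ht) hdd ?_ ?_
  · refine k.mono (le_of_eq ?_) ?_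
    · field_simp
      ring
    · have e : 1 / (2 * √(r2 g z)) * (6 * cR n B) +
          1 / (4 * √(r2 g z) ^ 3) * (6 * cR n B * √(r2 g z)) ^ 2 =
          (3 * cR n B + 9 * cR n B ^ 2) / √(r2 g z) := by
        field_simp
        ring
      rw [e]
      exact div_le_div_of_nonneg_left (by positivity) hc hr
  · rw [abs_of_pos (by positivity)]
  · rw [abs_neg, abs_of_pos (by positivity)]

end Vale.Agent.P088.R2.H349.EP
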