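import Vale.Agent.P088.R2.H349.EP.FW1

/-!
# P088, stage 3, EST': the derivatives of `u` and of the weight
-/

open Set Filter
open scoped ContDiff Topology

noncomputable section

namespace Vale.Agent.P088.R2.H349.EP

open Vale.Agent.P088.LR Vale.Agent.P088.HY Vale.Agent.P088.R2.H961.GW
open Vale.Agent.P088.R2.H464.Cu Vale.Agent.P088.R2.H31.EP

variable {n : ℕ} {A B c : ℝ} {g : MF n} {z : VV n} {l : V n → ℝ} {F : Fu}

/-- `|f|`, `|f'|`, `|f''|` at most `A` everywhere. -/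
structure B2 (A : ℝ) (f : ℝ → ℝ) : Prop where
  sm : ContDiff ℝ ∞ f
  b1 : ∀ s, |deriv f s| ≤ A
  b2 : ∀ s, |deriv (deriv f) s| ≤ A

theorem B2.J {E : Type*} [NormedAddCommGroup E] [NormedSpace ℝ E] {f : ℝ → ℝ} (h : B2 A f)
    {u : E → ℝ} {z : E} {a b : ℝ} (hu : J u z a b) :
    J (fun y => f (u y)) z (A * a) (A * b + A * a ^ 2) := by
  have d1 : ∀ t, HasDerivAt f (deriv f t) t := fun t =>
    (h.sm.differentiable (by simp) t).hasDerivAt
  have s2 : ContDiff ℝ ∞ (deriv f) := ((contDiff_infty_iff_deriv (𝕜 := ℝ)).1 h.sm).2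
  exact hu.comp1 (h.sm.contDiffAt.of_le two_le) (Eventually.of_forall d1)
    (s2.differentiable (by simp) _).hasDerivAt (h.b1 _) (h.b2 _)

theorem norm_fst' (w : VV n) : ‖w.1‖ ≤ ‖w‖ := norm_fst_le w

theorem norm_snd' (w : VV n) : ‖w.2‖ ≤ ‖w‖ := norm_snd_le w

/-- The derivatives of `u`. -/
theorem uJ (hA : 1 ≤ A) (hB : 0 ≤ B) (hG : Gz B g z) (hRA : 6 * cR n B ≤ A)
    (h1 : J l z.1 A A) (h2 : J l z.2 A A) (h3 : J l (mid z) A A)
    (cχ : B2 A F.χ) (cμ : B2 A F.μ) (χ1 : ∀ s, |F.χ s| ≤ 1) (μ1 : ∀ s, |F.μ s| ≤ 1)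
    (χ0 : ∀ s, 4 ≤ s → F.χ s = 0) :
    J (uu F l g) z (30 * A ^ 4) (30 * A ^ 4) := by
  have A0 : 0 ≤ A := by linarith
  have P2 : A ≤ A ^ 2 := by nlinarith
  have P3 : A ^ 2 ≤ A ^ 3 := by nlinarith [sq_nonneg A]
  have P4 : A ^ 3 ≤ A ^ 4 := by nlinarith [pow_nonneg A0 3]
  have j1 : J (fun y : VV n => l y.1) z A A :=
    J.lin (ContinuousLinearMap.fst ℝ (V n) (V n)) norm_fst' A0 A0 h1
  have j2 : J (fun y : VV n => l y.2) z A A :=
    J.lin (ContinuousLinearMap.snd ℝ (V n) (V n)) norm_snd' A0 A0 h2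
  have j3 : J (fun y : VV n => l (mid y)) z A A := J.lin (midL n) nm1 A0 A0 h3
  have key : J (fun y => F.χ (r2 g y) * F.μ (l (mid y))) z (3 * A ^ 2) (14 * A ^ 4) := by
    have c0 := cR_nonneg n hB
    rcases le_or_gt (r2 g z) 4 with h4 | h4
    · have hr : √(r2 g z) ≤ 2 := by
        rw [Real.sqrt_le_left (by norm_num)]
        norm_num
        exact h4
      have k0 := cχ.J (hG.J hB)
      have k1 : J (fun y => F.χ (r2 g y)) z (2 * A ^ 2) (5 * A ^ 3) := by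
        have e0 := Real.sqrt_nonneg (r2 g z)
        have e1 : 6 * cR n B * √(r2 g z) ≤ 2 * A := by nlinarith
        have e2 : 0 ≤ 6 * cR n B * √(r2 g z) := by positivity
        refine k0.mono ?_ ?_
        · nlinarith
        · have e3 : (6 * cR n B * √(r2 g z)) ^ 2 ≤ (2 * A) ^ 2 := by gcongr
          have e4 : A * (6 * cR n B * √(r2 g z)) ^ 2 ≤ A * (2 * A) ^ 2 := by gcongr
          have e5 : A * (6 * cR n B) ≤ A * A := by gcongr
          nlinarith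
      have k2 : J (fun y => F.μ (l (mid y))) z (A * A) (A * A + A * A ^ 2) := cμ.J j3
      refine (k1.mul k2 (χ1 _) (μ1 _)).mono ?_ ?_
      · nlinarith
      · have : A * A ≤ A ^ 4 := by nlinarith
        nlinarith
    · have hc : ContinuousAt (r2 g) z := (hG.J hB).sm.continuousAt
      have e : (fun y => F.χ (r2 g y) * F.μ (l (mid y))) =ᶠ[𝓝 z] fun _ => 0 := by
        filter_upwards [hc.eventually (Ioi_mem_nhds h4)] with y hy
        rw [χ0 _ (le_of_lt hy), zero_mul]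
      refine (J.of_zero e).mono ?_ ?_ <;> positivity
  have k := (j1.add j2).add (key.cmul 2)
  rw [abs_of_pos (by norm_num : (0 : ℝ) < 2)] at k
  refine k.mono ?_ ?_
  · nlinarith
  · nlinarith

/-- The data of the profile near the diagonal. -/
structure SN (A : ℝ) (F : Fu) (rd : ℝ) : Prop where
  s0 : ∀ s, 0 ≤ s → s ≤ 4 → |F.S s| ≤ A * s
  s1 : ∀ s, 0 ≤ s → s ≤ 4 → |deriv F.S s| ≤ A
  s2 : ∀ s, 0 ≤ s → s ≤ 4 → |deriv (deriv F.S) s| ≤ A
  rd : 2 < rd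

/-- **Near the diagonal.** -/
theorem wwN {rd K : ℝ} (hF : F.Ok rd) (hS : SN A F rd) (hX : F.X = fun _ => 1) (hA : 1 ≤ A)
    (hB : 0 ≤ B) (hG : Gz B g z) (hRA : 6 * cR n B ≤ A) (hu : J (uu F l g) z A A)
    (hr : r2 g z ≤ 4) (hN : 0 ≤ deriv F.Φ (uu F l g z))
    (hK : |deriv (deriv F.Φ) (uu F l g z)| ≤ K) :
    J (WW F l g) z
      (5 * A ^ 2 * (deriv F.Φ (uu F l g z) + Real.exp (uu F l g z) * √(r2 g z)))
      (40 * A ^ 4 * (deriv F.Φ (uu F l g z) + K + Real.exp (uu F l g z))) := by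
  have r0 := hG.r2_nonneg
  have q0 := Real.sqrt_nonneg (r2 g z)
  have hr2 : √(r2 g z) ≤ 2 := by
    rw [Real.sqrt_le_left (by norm_num)]
    norm_num
    exact hr
  have c0 := cR_nonneg n hB
  have js : J (r2 g) z (A * √(r2 g z)) A :=
    (hG.J hB).mono (mul_le_mul_of_nonneg_right hRA q0) hRA
  have d1 : ∀ t, HasDerivAt F.S (deriv F.S t) t := fun t =>
    (hF.Ss.differentiable (by simp) t).hasDerivAt
  have s2 : ContDiff ℝ ∞ (deriv F.S) := ((contDiff_infty_iff_deriv (𝕜 := ℝ)).1 hF.Ss).2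
  have d2 : ∀ t, HasDerivAt (deriv F.S) (deriv (deriv F.S) t) t := fun t =>
    (s2.differentiable (by simp) t).hasDerivAt
  have h := J.near hA q0 hr2 hu js hF.Φs hN hK hF.Ss d1 d2
    (by rw [Real.sq_sqrt r0]; exact hS.s0 _ r0 hr) (hS.s1 _ r0 hr) (hS.s2 _ r0 hr)
  refine h.congr ?_
  have hc : ContinuousAt (r2 g) z := (hG.J hB).sm.continuousAt
  have h4 : r2 g z < rd ^ 2 := by
    have := hS.rd
    nlinarith
  filter_upwards [hc.eventually (Iio_mem_nhds h4)] with y hy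
  unfold WW
  rw [hX, st_in' hF hy, one_mul]

/-- **Away from the diagonal.** -/
theorem wwO {rd K G : ℝ} {D : ℕ → ℕ → ℝ × ℝ → ℝ} {lm lm' : ℝ → ℝ} {lm'' : ℝ} (hF : F.Ok rd)
    (hX : F.X = fun _ => 1) (hA : 1 ≤ A) (hB : 0 ≤ B) (hG : Gz B g z)
    (hu : J (uu F l g) z A A) (hc : 0 < c) (hr : c ≤ √(r2 g z)) (hA1 : 3 * cR n B ≤ A)
    (hA2 : (3 * cR n B + 9 * cR n B ^ 2) / c ≤ A)
    (hN : 0 ≤ deriv F.Φ (uu F l g z)) (hK : |deriv (deriv F.Φ) (uu F l g z)| ≤ K)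
    (hΨ : F.Ψ = D 0 0)
    (sm : ∀ i j, ContDiffOn ℝ ∞ (D i j) {z | 0 < z.2})
    (hd : ∀ i j z, 0 < z.2 → HasFDerivAt (D i j) (H768.W.lf (D (i + 1) j z) (D i (j + 1) z)) z)
    (el : ∀ᶠ t in 𝓝 (√(r2 g z)), lm t = Real.log (F.S (t ^ 2)))
    (sl : ContDiffAt ℝ 2 lm (√(r2 g z)))
    (d1 : ∀ᶠ t in 𝓝 (√(r2 g z)), HasDerivAt lm (lm' t) t) (d2 : HasDerivAt lm' lm'' (√(r2 g z)))
    (h1 : |lm' (√(r2 g z))| ≤ A) (h2 : |lm''| ≤ A)
    (h10 : |D 1 0 (uu F l g z + lm (√(r2 g z)), √(r2 g z))| ≤ A * G)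
    (h01 : |D 0 1 (uu F l g z + lm (√(r2 g z)), √(r2 g z))| ≤ A * G)
    (h20 : |D 2 0 (uu F l g z + lm (√(r2 g z)), √(r2 g z))| ≤ A * G)
    (h11 : |D 1 1 (uu F l g z + lm (√(r2 g z)), √(r2 g z))| ≤ A * G)
    (h02 : |D 0 2 (uu F l g z + lm (√(r2 g z)), √(r2 g z))| ≤ A * G) :
    J (WW F l g) z (4 * A ^ 3 * (deriv F.Φ (uu F l g z) + G))
      (20 * A ^ 5 * (deriv F.Φ (uu F l g z) + K + G)) := by
  have r0 : 0 < √(r2 g z) := hc.trans_le hr
  have s0 : 0 < r2 g z := Real.sqrt_pos.1 r0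
  have jr : J (fun z => √(r2 g z)) z A A := (hG.Jr hB hc hr).mono hA1 hA2
  have h := J.off (isOpen_lt continuous_const continuous_snd) (sm 0 0) (fun i j x hx => hd i j x hx)
    hA hu jr hF.Φs hN hK sl d1 d2 h1 h2 r0 h10 h01 h20 h11 h02
  refine h.congr ?_
  have hc1 : ContinuousAt (r2 g) z := (hG.J hB).sm.continuousAt
  have hc2 : ContinuousAt (fun y => √(r2 g y)) z := jr.sm.continuousAt
  filter_upwards [hc1.eventually (Ioi_mem_nhds s0), hc2.eventually el] with y hy hy2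
  unfold WW
  rw [hX, st_out hF hy, one_mul, hΨ]
  have e : lm √(r2 g y) = Real.log (F.S (r2 g y)) := by
    rw [hy2, Real.sq_sqrt (le_of_lt hy)]
  rw [e]

end Vale.Agent.P088.R2.H349.EP
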