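import Vale.Agent.P088.R2.H349.EP.FW2
import Vale.Agent.P088.R2.H349.EP.FuOk
import Vale.Agent.P088.R2.H606.EP.Muc
import Vale.Agent.P088.R2.H606.EP.Ten
import Vale.Agent.P088.R2.H475.INF.LevD

/-!
# P088, stage 3, EST': the constants of the bounds of the derivatives of the weight
-/

open Set Filter
open scoped ContDiff Topology

noncomputable section

namespace Vale.Agent.P088.R2.H349.EP

open Vale.Agent.P088.LR Vale.Agent.P088.HY Vale.Agent.P088.R2.H961.GW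
open Vale.Agent.P088.R2.H464.Cu Vale.Agent.P088.R2.H31.EP
open Vale.Agent.P088.R2.H475 (levG lam0 wR)

variable {n : ℕ} {A B c σ R kap Gs : ℝ}

/-! ## The level -/

theorem J.of_it {E : Type*} [NormedAddCommGroup E] [NormedSpace ℝ E] {f : E → ℝ}
    (hf : ContDiff ℝ ∞ f) {x : E} {a b : ℝ} (h1 : ‖fderiv ℝ f x‖ ≤ a)
    (h2 : ‖iteratedFDeriv ℝ 2 f x‖ ≤ b) : J f x a b := by
  refine ⟨hf.contDiffAt.of_le two_le, fun w => ?_, fun w w' => ?_⟩
  · have := (fderiv ℝ f x).le_opNorm w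
    rw [Real.norm_eq_abs] at this
    exact this.trans (mul_le_mul_of_nonneg_right h1 (norm_nonneg _))
  · have hd : DifferentiableAt ℝ (fderiv ℝ f) x :=
      ((hf.fderiv_right (m := ∞) (by simp)).differentiable (by simp)) x
    have e1 : fderiv ℝ (fun y => fderiv ℝ f y w) x w' = iteratedFDeriv ℝ 2 f x ![w', w] := by
      rw [iteratedFDeriv_two_apply]
      have := (hd.hasFDerivAt.clm_apply (hasFDerivAt_const w x)).fderiv
      rw [this]
      simp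
    rw [e1, ← Real.norm_eq_abs]
    refine ((iteratedFDeriv ℝ 2 f x).le_opNorm _).trans ?_
    rw [Fin.prod_univ_two]
    simp only [Matrix.cons_val_zero, Matrix.cons_val_one]
    rw [mul_comm ‖w'‖]
    exact mul_le_mul_of_nonneg_right h2 (by positivity)

theorem lvJ (hn : 1 ≤ n) (h0 : 0 < σ) (h1 : σ ≤ 1 / 5000) (B : ℝ) :
    ∃ A, ∀ R kap Gs : ℝ, 1 ≤ R → ∀ x : V n, ‖x‖ ≤ B * R → J (levG n σ R kap Gs) x A A := by
  obtain ⟨C1, c1, H1⟩ := H475.levG_bound1 (n := n) hn h0 h1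
  obtain ⟨C2, c2, H2⟩ := H475.levG_bound (n := n) hn h0 h1 0
  refine ⟨C1 * (1 + B) + C2, fun R kap Gs hR x hx => ?_⟩
  have hR0 : 0 < R := by linarith
  have k : ‖x‖ / R ≤ B := by rw [div_le_iff₀ hR0]; exact hx
  have kn : 0 ≤ ‖x‖ / R := by positivity
  have B0 : 0 ≤ B := kn.trans k
  refine J.of_it (H475.levG_smooth h0 h1) ?_ ?_
  · refine (H1 R kap Gs hR0 x).trans ?_
    have : C1 * (1 + ‖x‖ / R) ≤ C1 * (1 + B) := by gcongr
    linarith
  · refine (H2 R kap Gs hR0 x).trans ?_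
    have h3 : R⁻¹ ^ (0 + 1) ≤ 1 := by
      rw [zero_add, pow_one]
      exact inv_le_one_of_one_le₀ hR
    have : C2 * R⁻¹ ^ (0 + 1) ≤ C2 * 1 := mul_le_mul_of_nonneg_left h3 c2.le
    have : 0 ≤ C1 * (1 + B) := by positivity
    linarith

/-! ## The cut-off and the correction -/

theorem chi0_B2 : B2 H606.EP.cSt chi0 := by
  obtain ⟨c1, c2, c3⟩ := H606.EP.cSt_spec
  have s0 : ContDiff ℝ ∞ Real.smoothTransition := Real.smoothTransition.contDiff
  have s1 : ContDiff ℝ ∞ (deriv Real.smoothTransition) := (contDiff_infty_iff_deriv.1 s0).2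
  have ha : ∀ s : ℝ, HasDerivAt (fun s : ℝ => (4 - s) / 3) (-(1 / 3)) s := fun s => by
    refine (((hasDerivAt_id s).const_sub 4).div_const 3).congr_deriv ?_
    ring
  have d1 : ∀ s, HasDerivAt chi0 (deriv Real.smoothTransition ((4 - s) / 3) * (-(1 / 3))) s :=
    fun s => ((s0.differentiable (by simp)) _).hasDerivAt.comp s (ha s)
  have e1 : deriv chi0 = fun s => deriv Real.smoothTransition ((4 - s) / 3) * (-(1 / 3)) :=
    funext fun s => (d1 s).deriv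
  have d2 : ∀ s, HasDerivAt (deriv chi0)
      (deriv (deriv Real.smoothTransition) ((4 - s) / 3) * (-(1 / 3)) * (-(1 / 3))) s := fun s => by
    rw [e1]
    exact (((s1.differentiable (by simp)) _).hasDerivAt.comp s (ha s)).mul_const _
  refine ⟨?_, fun s => ?_, fun s => ?_⟩
  · unfold chi0
    exact s0.comp ((contDiff_const.sub contDiff_id).div_const 3)
  · rw [e1]
    simp only
    rw [abs_mul]
    have := c2 ((4 - s) / 3)
    have h3 : |-(1 / 3 : ℝ)| = 1 / 3 := by rw [abs_neg]; norm_num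
    rw [h3]
    have := abs_nonneg (deriv Real.smoothTransition ((4 - s) / 3))
    linarith
  · rw [(d2 s).deriv, abs_mul, abs_mul]
    have := c3 ((4 - s) / 3)
    have h3 : |-(1 / 3 : ℝ)| = 1 / 3 := by rw [abs_neg]; norm_num
    rw [h3]
    have := abs_nonneg (deriv (deriv Real.smoothTransition) ((4 - s) / 3))
    linarith

theorem chi0_le (s : ℝ) : |chi0 s| ≤ 1 := by
  unfold chi0
  rw [abs_of_nonneg (Real.smoothTransition.nonneg _)]
  exact Real.smoothTransition.le_one _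

theorem chi0_zero {s : ℝ} (h : 4 ≤ s) : chi0 s = 0 :=
  Real.smoothTransition.zero_of_nonpos (by linarith)

/-- The constant of the correction. -/
def cMu : ℝ := |muC 0| + |muC 1| + 8 * H606.EP.cSt * (1 + |muC 0|) + 4 * H606.EP.cSt

theorem muc_B2 {q : Cst} {d : Pk n} (ok : PkOk q d) (hR : 1 ≤ q.R) : B2 cMu (d.μc q) := by
  obtain ⟨c1, c2, c3⟩ := H606.EP.cSt_spec
  have hR0 : 0 < q.R := by linarith
  have e : d.μc q = fun s => d.μ s * H606.EP.ct (d.l₀ q) q.R s := rfl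
  have hm := ok.ph.isμ
  have b0 : H313.Mu.b0 1 q.M₀ ≤ 1 / 8 := ok.ph.b0
  have b00 : 0 ≤ H313.Mu.b0 1 q.M₀ := by
    have h1 := hm.d1 0
    have h2 := hm.d2 0
    linarith
  have m0 : ∀ s, |d.μ s| ≤ 1 / 8 := ok.ph.μb
  have m1 : ∀ s, |deriv d.μ s| ≤ |muC 0| := fun s => by
    have := hm.bj 0 s
    rw [zero_add, iteratedDeriv_one] at this
    refine this.trans ?_
    have h3 := le_abs_self (muC 0)
    have h4 := abs_nonneg (muC 0)
    nlinarith
  have m2 : ∀ s, |deriv (deriv d.μ) s| ≤ |muC 1| := fun s => by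
    have := hm.bj 1 s
    rw [iteratedDeriv_succ, iteratedDeriv_one] at this
    refine this.trans ?_
    have h3 := le_abs_self (muC 1)
    have h4 := abs_nonneg (muC 1)
    nlinarith
  have hi : 1 / q.R ≤ 1 := by rw [div_le_one hR0]; exact hR
  have hi0 : 0 ≤ 1 / q.R := by positivity
  have k1 : 2 * H606.EP.cSt / q.R ≤ 2 * H606.EP.cSt := div_le_self (by linarith) hR
  have k2 : 4 * H606.EP.cSt / q.R ^ 2 ≤ 4 * H606.EP.cSt := div_le_self (by linarith) (one_le_pow₀ hR)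
  have k10 : 0 ≤ 2 * H606.EP.cSt / q.R := by positivity
  have k20 : 0 ≤ 4 * H606.EP.cSt / q.R ^ 2 := by positivity
  have n0 := abs_nonneg (muC 0)
  have n1 := abs_nonneg (muC 1)
  rw [e]
  refine ⟨hm.sm.mul H606.EP.ct_sm, fun s => ?_, fun s => ?_⟩
  · refine (H606.EP.muc_b1 hm.sm hR0 (m0 s) (m1 s)).trans ?_
    unfold cMu
    nlinarith
  · refine (H606.EP.muc_b2 hm.sm hR0 (m0 s) (m1 s) (m2 s)).trans ?_
    unfold cMu
    nlinarith

/-! ## The profile -/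

theorem prS_near {e₁ : ℝ} (he : 0 < e₁) : ∃ A : ℝ, (∀ s, 0 ≤ s → s ≤ 4 → |prS e₁ s| ≤ A * s) ∧
    (∀ s, 0 ≤ s → s ≤ 4 → |deriv (prS e₁) s| ≤ A) ∧
    ∀ s, 0 ≤ s → s ≤ 4 → |deriv (deriv (prS e₁)) s| ≤ A := by
  have s0 : ContDiff ℝ ∞ (prS e₁) := (pp_ok he).contDiff_Ph
  have s1 : ContDiff ℝ ∞ (deriv (prS e₁)) := (contDiff_infty_iff_deriv.1 s0).2
  have s2 : ContDiff ℝ ∞ (deriv (deriv (prS e₁))) := (contDiff_infty_iff_deriv.1 s1).2
  obtain ⟨C1, h1⟩ := isCompact_Icc.exists_bound_of_continuousOn (s := Icc (0 : ℝ) 4)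
    (f := deriv (prS e₁)) s1.continuous.continuousOn
  obtain ⟨C2, h2⟩ := isCompact_Icc.exists_bound_of_continuousOn (s := Icc (0 : ℝ) 4)
    (f := deriv (deriv (prS e₁))) s2.continuous.continuousOn
  refine ⟨|C1| + |C2|, fun s a b => ?_, fun s a b => ?_, fun s a b => ?_⟩
  · have key := Convex.norm_image_sub_le_of_norm_deriv_le (f := prS e₁) (s := Icc (0 : ℝ) 4)
      (C := |C1|) (x := 0) (y := s) (fun x _ => s0.differentiable (by simp) x)
      (fun x hx => (h1 x hx).trans (le_abs_self _)) (convex_Icc _ _) ⟨le_rfl, by norm_num⟩ ⟨a, b⟩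
    rw [prS_zero, sub_zero, sub_zero, Real.norm_eq_abs, Real.norm_eq_abs, abs_of_nonneg a] at key
    have := mul_nonneg (abs_nonneg C2) a
    linarith
  · have := h1 s ⟨a, b⟩
    rw [Real.norm_eq_abs] at this
    linarith [le_abs_self C1, abs_nonneg C2]
  · have := h2 s ⟨a, b⟩
    rw [Real.norm_eq_abs] at this
    linarith [le_abs_self C2, abs_nonneg C1]

theorem prL_far {e₁ c : ℝ} (he : 0 < e₁) (hc : 0 < c) : ∃ A : ℝ, ∀ r, c ≤ r →
    |prL e₁ r| ≤ A ∧ |deriv (prL e₁) r| ≤ A := by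
  obtain ⟨C0, h0⟩ := (pp_ok he).exists_bound 0 hc
  obtain ⟨C1, h1⟩ := (pp_ok he).exists_bound 1 hc
  refine ⟨|C0| + |C1|, fun r hr => ⟨?_, ?_⟩⟩
  · have := h0 r hr
    rw [iteratedDeriv_zero] at this
    exact this.trans (by linarith [le_abs_self C0, abs_nonneg C1])
  · have := h1 r hr
    rw [iteratedDeriv_one] at this
    exact this.trans (by linarith [le_abs_self C1, abs_nonneg C0])

/-- The constants of the bounds. -/
structure FwK (n : ℕ) (σ e₁ c₀ L A : ℝ) : Prop where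
  A1 : 1 ≤ A
  lv : ∀ R kap Gs : ℝ, 1 ≤ R → ∀ x : V n, ‖x‖ ≤ 4 / σ * R → J (levG n σ R kap Gs) x A A
  g1 : 6 * cR n 1 ≤ A
  g2 : (3 * cR n 1 + 9 * cR n 1 ^ 2) / (c₀ / 2) ≤ A
  ch : H606.EP.cSt ≤ A
  mu : cMu ≤ A
  s0 : ∀ s, 0 ≤ s → s ≤ 4 → |prS e₁ s| ≤ A * s
  s1 : ∀ s, 0 ≤ s → s ≤ 4 → |deriv (prS e₁) s| ≤ A
  s2 : ∀ s, 0 ≤ s → s ≤ 4 → |deriv (deriv (prS e₁)) s| ≤ A
  pl : ∀ r, c₀ / 2 ≤ r → |prL e₁ r| ≤ A ∧ |deriv (prL e₁) r| ≤ A
  sl : ∀ i j, i ≤ 2 → j ≤ 2 → slB i j ≤ A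
  kl : L + 1 / 20 ≤ A

theorem FwK.mono {e₁ c₀ L A' : ℝ} (h : FwK n σ e₁ c₀ L A) (hA : A ≤ A') : FwK n σ e₁ c₀ L A' where
  A1 := h.A1.trans hA
  lv := fun R kap Gs hR x hx => (h.lv R kap Gs hR x hx).mono hA hA
  g1 := h.g1.trans hA
  g2 := h.g2.trans hA
  ch := h.ch.trans hA
  mu := h.mu.trans hA
  s0 := fun s a b => (h.s0 s a b).trans (mul_le_mul_of_nonneg_right hA a)
  s1 := fun s a b => (h.s1 s a b).trans hA
  s2 := fun s a b => (h.s2 s a b).trans hA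
  pl := fun r hr => ⟨(h.pl r hr).1.trans hA, (h.pl r hr).2.trans hA⟩
  sl := fun i j hi hj => (h.sl i j hi hj).trans hA
  kl := h.kl.trans hA

theorem fwK_ex (hn : 1 ≤ n) {e₁ c₀ : ℝ} (L : ℝ) (h0 : 0 < σ) (h1 : σ ≤ 1 / 5000) (he : 0 < e₁)
    (hc : 0 < c₀) : ∃ A, FwK n σ e₁ c₀ L A := by
  obtain ⟨A1, k1⟩ := lvJ (n := n) hn h0 h1 (4 / σ)
  obtain ⟨A2, k2, k3, k4⟩ := prS_near he
  obtain ⟨A3, k5⟩ := prL_far he (c := c₀ / 2) (by positivity)
  obtain ⟨S, hS⟩ : ∃ S, S = ∑ i ∈ Finset.range 3, ∑ j ∈ Finset.range 3, |slB i j| := ⟨_, rfl⟩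
  have hS' : ∀ i j, i ≤ 2 → j ≤ 2 → slB i j ≤ S := by
    intro i j hi hj
    rw [hS]
    refine (le_abs_self _).trans ?_
    have a1 : |slB i j| ≤ ∑ j ∈ Finset.range 3, |slB i j| :=
      Finset.single_le_sum (f := fun j => |slB i j|) (fun _ _ => abs_nonneg _)
        (Finset.mem_range.2 (by omega))
    refine a1.trans ?_
    exact Finset.single_le_sum (f := fun i => ∑ j ∈ Finset.range 3, |slB i j|)
      (fun _ _ => Finset.sum_nonneg fun _ _ => abs_nonneg _) (Finset.mem_range.2 (by omega))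
  have hS0 : 0 ≤ S := by
    rw [hS]
    exact Finset.sum_nonneg fun _ _ => Finset.sum_nonneg fun _ _ => abs_nonneg _
  have c0 := cR_nonneg n (zero_le_one (α := ℝ))
  obtain ⟨T, hT⟩ : ∃ T, T = 1 + |A1| + 6 * cR n 1 + (3 * cR n 1 + 9 * cR n 1 ^ 2) / (c₀ / 2) +
    |H606.EP.cSt| + |cMu| + |A2| + |A3| + S + |L + 1 / 20| := ⟨_, rfl⟩
  have p2 : 0 ≤ (3 * cR n 1 + 9 * cR n 1 ^ 2) / (c₀ / 2) := by positivity
  have a1 := abs_nonneg A1
  have a2 := abs_nonneg A2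
  have a3 := abs_nonneg A3
  have a4 := abs_nonneg H606.EP.cSt
  have a5 := abs_nonneg cMu
  have a6 := abs_nonneg (L + 1 / 20)
  have b1 := le_abs_self A1
  have b2 := le_abs_self A2
  have b3 := le_abs_self A3
  have b4 := le_abs_self H606.EP.cSt
  have b5 := le_abs_self cMu
  have b6 := le_abs_self (L + 1 / 20)
  refine ⟨T, ?_, ?_, ?_, ?_, ?_, ?_, ?_, ?_, ?_, ?_, ?_, ?_⟩
  · linarith
  · intro R kap Gs hR x hx
    exact (k1 R kap Gs hR x hx).mono (by linarith) (by linarith)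
  · linarith
  · linarith
  · linarith
  · linarith
  · intro s a b
    refine (k2 s a b).trans (mul_le_mul_of_nonneg_right ?_ a)
    linarith
  · intro s a b
    exact (k3 s a b).trans (by linarith)
  · intro s a b
    exact (k4 s a b).trans (by linarith)
  · intro r hr
    exact ⟨(k5 r hr).1.trans (by linarith), (k5 r hr).2.trans (by linarith)⟩
  · intro i j hi hj
    exact (hS' i j hi hj).trans (by linarith)
  · linarith

/-- The constant as a function of the constants before `M₀`. -/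
def fwA (n : ℕ) (q : Cst) : ℝ :=
  @Classical.epsilon ℝ ⟨1⟩ (FwK n q.σ q.e₁ q.c₀ q.L)

theorem fwA_spec (hn : 1 ≤ n) {q : Cst} (h0 : 0 < q.σ) (h1 : q.σ ≤ 1 / 5000) (he : 0 < q.e₁)
    (hc : 0 < q.c₀) : FwK n q.σ q.e₁ q.c₀ q.L (fwA n q) :=
  @Classical.epsilon_spec _ (FwK n q.σ q.e₁ q.c₀ q.L) (fwK_ex hn q.L h0 h1 he hc)

theorem fwA_NB (n : ℕ) : NB_M₀ (fwA n) := fun _ => rfl

end Vale.Agent.P088.R2.H349.EP
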