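import Vale.Agent.P088.R2.H349.EP.FW4
import Vale.Agent.P088.R2.H871.INF.RetP
import Vale.Agent.P088.R2.H961.W.Inst

/-!
# P088, stage 3, EST': upper bounds of `F` and `Λ W` of the package
-/

open Set Filter
open scoped ContDiff Topology

noncomputable section

namespace Vale.Agent.P088.R2.H349.EP

open Vale.Agent.P088.LR Vale.Agent.P088.HY Vale.Agent.P088.R2.H961.GW
open Vale.Agent.P088.R2.H464.Cu Vale.Agent.P088.R2.H31.EP
open Vale.Agent.P088.R2.H475 (levG lam0 wR levG_high)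
open Vale.Agent.P088.R2.H871.INF (yc ra ra_le gy_le_iff rt_hi rP rP_unit norm_le_en)
open Vale.Agent.P088.R2.H606.EP (cT eI rg_ng rg_n1 rg_n2)

variable {n : ℕ} {q : Cst} {d : Pk n} {z : VV n} {a b : ℝ} {f : VV n → ℝ}

/-! ## Slices -/

theorem fd_r {x y : V n} (h : DifferentiableAt ℝ f (x, y)) (w : V n) :
    fderiv ℝ (fun y => f (x, y)) y w = fderiv ℝ f (x, y) (0, w) := by
  have h1 : HasFDerivAt (fun y => f (x, y)) ((fderiv ℝ f (x, y)).comp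
      (ContinuousLinearMap.inr ℝ (V n) (V n))) y :=
    HasFDerivAt.comp y h.hasFDerivAt (hasFDerivAt_prodMk_right x y)
  rw [h1.fderiv]
  rfl

theorem fd_l {x y : V n} (h : DifferentiableAt ℝ f (x, y)) (w : V n) :
    fderiv ℝ (fun x => f (x, y)) x w = fderiv ℝ f (x, y) (w, 0) := by
  have h1 : HasFDerivAt (fun x => f (x, y)) ((fderiv ℝ f (x, y)).comp
      (ContinuousLinearMap.inl ℝ (V n) (V n))) x :=
    HasFDerivAt.comp x h.hasFDerivAt (hasFDerivAt_prodMk_left x y)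
  rw [h1.fderiv]
  rfl

theorem fd_r2 {x y : V n} (h : ContDiffAt ℝ 2 f (x, y)) (w w' : V n) :
    fderiv ℝ (fun y => fderiv ℝ (fun y => f (x, y)) y w) y w' =
      fderiv ℝ (fun z => fderiv ℝ f z (0, w)) (x, y) (0, w') := by
  have hc : ContinuousAt (fun y : V n => (x, y)) y := by fun_prop
  have e : (fun y => fderiv ℝ (fun y => f (x, y)) y w) =ᶠ[𝓝 y]
      fun y => (fun z => fderiv ℝ f z (0, w)) (x, y) := by
    filter_upwards [hc.eventually (evd h)] with y' hy' using fd_r hy' w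
  rw [e.fderiv_eq]
  exact fd_r (f := fun z => fderiv ℝ f z (0, w)) (dff_of h (0, w)) w'

theorem fd_l2 {x y : V n} (h : ContDiffAt ℝ 2 f (x, y)) (w w' : V n) :
    fderiv ℝ (fun x => fderiv ℝ (fun x => f (x, y)) x w) x w' =
      fderiv ℝ (fun z => fderiv ℝ f z (w, 0)) (x, y) (w', 0) := by
  have hc : ContinuousAt (fun x : V n => (x, y)) x := by fun_prop
  have e : (fun x => fderiv ℝ (fun x => f (x, y)) x w) =ᶠ[𝓝 x]
      fun x => (fun z => fderiv ℝ f z (w, 0)) (x, y) := by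
    filter_upwards [hc.eventually (evd h)] with y' hy' using fd_l hy' w
  rw [e.fderiv_eq]
  exact fd_l (f := fun z => fderiv ℝ f z (w, 0)) (dff_of h (w, 0)) w'

theorem nrm_r (w : V n) : ‖((0, w) : VV n)‖ = ‖w‖ := by
  rw [Prod.norm_def]
  simp

theorem nrm_l (w : V n) : ‖((w, 0) : VV n)‖ = ‖w‖ := by
  rw [Prod.norm_def]
  simp

theorem J.sl_r {x y : V n} (h : J f (x, y) a b) : J (fun y => f (x, y)) y a b := by
  refine ⟨ContDiffAt.comp (g := f) y h.sm (contDiffAt_const.prodMk contDiffAt_id), fun w => ?_,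
    fun w w' => ?_⟩
  · rw [fd_r h.df, ← nrm_r w]
    exact h.d1 _
  · rw [fd_r2 h.sm, ← nrm_r w, ← nrm_r w']
    exact h.d2 _ _

theorem J.sl_l {x y : V n} (h : J f (x, y) a b) : J (fun x => f (x, y)) x a b := by
  refine ⟨ContDiffAt.comp (g := f) x h.sm (contDiffAt_id.prodMk contDiffAt_const), fun w => ?_,
    fun w w' => ?_⟩
  · rw [fd_l h.df, ← nrm_l w]
    exact h.d1 _
  · rw [fd_l2 h.sm, ← nrm_l w, ← nrm_l w']
    exact h.d2 _ _

theorem J.add_const {E : Type*} [NormedAddCommGroup E] [NormedSpace ℝ E] {f : E → ℝ} {z : E}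
    (h : J f z a b) (c : ℝ) : J (fun y => f y + c) z a b := by
  have := h.add (J.const (z := z) c)
  rwa [add_zero, add_zero] at this

/-- The derivatives in the second variable. -/
structure Jy (f : VV n → ℝ) (z : VV n) (a b : ℝ) : Prop where
  d1 : ∀ w, |fderiv ℝ f z (0, w)| ≤ a * ‖w‖
  d2 : ∀ w w', |fderiv ℝ (fun y => fderiv ℝ f y (0, w)) z (0, w')| ≤ b * (‖w‖ * ‖w'‖)

/-- The derivatives in the first variable. -/
structure Jx (f : VV n → ℝ) (z : VV n) (a b : ℝ) : Prop where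
  d1 : ∀ w, |fderiv ℝ f z (w, 0)| ≤ a * ‖w‖
  d2 : ∀ w w', |fderiv ℝ (fun y => fderiv ℝ f y (w, 0)) z (w', 0)| ≤ b * (‖w‖ * ‖w'‖)

theorem Jy.of (hf : ContDiffAt ℝ 2 f z) (h : J (fun y => f (z.1, y)) z.2 a b) : Jy f z a b := by
  refine ⟨fun w => ?_, fun w w' => ?_⟩
  · have := h.d1 w
    rwa [fd_r (hf.differentiableAt (by norm_num))] at this
  · have := h.d2 w w'
    rwa [fd_r2 hf] at this

theorem Jx.of (hf : ContDiffAt ℝ 2 f z) (h : J (fun x => f (x, z.2)) z.1 a b) : Jx f z a b := by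
  refine ⟨fun w => ?_, fun w w' => ?_⟩
  · have := h.d1 w
    rwa [fd_l (hf.differentiableAt (by norm_num))] at this
  · have := h.d2 w w'
    rwa [fd_l2 hf] at this

/-! ## From derivatives to the slots -/

theorem nsg (i : Fin n) : ‖(Pi.single i 1 : V n)‖ ≤ 1 := H464.Cu.norm_single_le i

theorem sum2_le {F : Fin n → Fin n → ℝ} {c : ℝ} (h : ∀ i j, |F i j| ≤ c) :
    |∑ i, ∑ j, F i j| ≤ n ^ 2 * c := by
  refine (Finset.abs_sum_le_sum_abs _ _).trans ?_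
  have h1 : ∀ i ∈ Finset.univ, |∑ j, F i j| ≤ n * c := fun i _ => by
    refine (Finset.abs_sum_le_sum_abs _ _).trans ?_
    refine (Finset.sum_le_sum fun j _ => h i j).trans ?_
    simp
  refine (Finset.sum_le_sum h1).trans ?_
  simp only [Finset.sum_const, Finset.card_univ, Fintype.card_fin, nsmul_eq_mul]
  exact le_of_eq (by ring)

section slots

variable {s : MF n}

/-- The bounds of the tensor at a point. -/
structure Sb (s : MF n) (x : V n) : Prop where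
  b0 : ∀ i j, |s x i j| ≤ 2
  b1 : ∀ i j, |pd i (fun y => s y i j) x| ≤ 1
  df : ∀ i j, DifferentiableAt ℝ (fun y => s y i j) x

theorem pd_one (i : Fin n) (x : V n) : pd i (fun _ => (1 : ℝ)) x = 0 := by
  unfold pd
  simp

theorem sl_bd {σ : Sl (VV n) (Fin n)} {x : V n} {z : VV n} (A0 : 0 ≤ a)
    (hb : Sb s x) (hs : ∀ i j, σ.s i j z = s x i j) (hk : ∀ i, σ.k i z = 0)
    (hds : ∀ i j, σ.D i (σ.s i j) z = pd i (fun y => s y i j) x)
    (h1 : ∀ i, |σ.D i f z| ≤ a) (h2 : ∀ i j, |σ.D i (σ.D j f) z| ≤ b) :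
    σ.F f z ≤ n ^ 2 * (2 * a ^ 2) ∧ |σ.Λ f z| ≤ n ^ 2 * (2 * b + a) := by
  constructor
  · refine (le_abs_self _).trans (sum2_le fun i j => ?_)
    rw [abs_mul, abs_mul, hs]
    have e1 := hb.b0 i j
    have e2 := mul_le_mul (h1 i) (h1 j) (abs_nonneg _) A0
    have e3 := mul_le_mul e1 e2 (by positivity) (by norm_num : (0 : ℝ) ≤ 2)
    calc _ = |s x i j| * (|σ.D i f z| * |σ.D j f z|) := by ring
      _ ≤ 2 * (a * a) := e3
      _ = _ := by ring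
  · refine sum2_le fun i j => ?_
    rw [hk, zero_mul, add_zero, hds, hs]
    refine (abs_add_le _ _).trans ?_
    rw [abs_mul, abs_mul]
    have e1 := mul_le_mul (hb.b0 i j) (h2 i j) (abs_nonneg _) (by norm_num : (0 : ℝ) ≤ 2)
    have e2 := mul_le_mul (hb.b1 i j) (h1 j) (abs_nonneg _) (by norm_num : (0 : ℝ) ≤ 1)
    linarith

theorem Jy.bd (h : Jy f z a b) (A0 : 0 ≤ a) (B0 : 0 ≤ b) (hb : Sb s z.2) :
    (sly (fun _ => (1 : ℝ)) s).F f z ≤ n ^ 2 * (2 * a ^ 2) ∧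
      |(sly (fun _ => (1 : ℝ)) s).Λ f z| ≤ n ^ 2 * (2 * b + a) := by
  have eD : ∀ (i : Fin n) (g : VV n → ℝ) (w : VV n),
      (sly (fun _ => (1 : ℝ)) s).D i g w = fderiv ℝ g w (0, Pi.single i 1) := fun i g w => by
    simp [Sl.D, sly]
  refine sl_bd (x := z.2) A0 hb (fun i j => rfl) (fun i => ?_) (fun i j => ?_) (fun i => ?_)
    fun i j => ?_
  · simp [sly, pd_one]
  · have := Dy_snd (r := fun _ => (1 : ℝ)) (s := s) (z := z) (hb.df i j) i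
    rw [one_mul] at this
    exact this
  · rw [eD]
    have e1 := h.d1 (Pi.single i 1)
    exact e1.trans (mul_le_of_le_one_right A0 (nsg i))
  · rw [eD]
    have e0 : (sly (fun _ => (1 : ℝ)) s).D j f = fun y => fderiv ℝ f y (0, Pi.single j 1) :=
      funext fun y => eD j f y
    rw [e0]
    refine (h.d2 _ _).trans (mul_le_of_le_one_right B0 ?_)
    exact mul_le_one₀ (nsg j) (norm_nonneg _) (nsg i)

theorem Jx.bd (h : Jx f z a b) (A0 : 0 ≤ a) (B0 : 0 ≤ b) (hb : Sb s z.1) :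
    (slx (fun _ => (1 : ℝ)) s).F f z ≤ n ^ 2 * (2 * a ^ 2) ∧
      |(slx (fun _ => (1 : ℝ)) s).Λ f z| ≤ n ^ 2 * (2 * b + a) := by
  have eD : ∀ (i : Fin n) (g : VV n → ℝ) (w : VV n),
      (slx (fun _ => (1 : ℝ)) s).D i g w = fderiv ℝ g w (Pi.single i 1, 0) := fun i g w => by
    simp [Sl.D, slx]
  refine sl_bd (x := z.1) A0 hb (fun i j => rfl) (fun i => ?_) (fun i j => ?_) (fun i => ?_)
    fun i j => ?_
  · simp [slx, pd_one]
  · have := Dx_fst (r := fun _ => (1 : ℝ)) (s := s) (z := z) (hb.df i j) i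
    rw [one_mul] at this
    exact this
  · rw [eD]
    have e1 := h.d1 (Pi.single i 1)
    exact e1.trans (mul_le_of_le_one_right A0 (nsg i))
  · rw [eD]
    have e0 : (slx (fun _ => (1 : ℝ)) s).D j f = fun y => fderiv ℝ f y (Pi.single j 1, 0) :=
      funext fun y => eD j f y
    rw [e0]
    refine (h.d2 _ _).trans (mul_le_of_le_one_right B0 ?_)
    exact mul_le_one₀ (nsg j) (norm_nonneg _) (nsg i)

theorem Sb.of {ε δ₁ δ₂ : ℝ} (h : Nr univ ε δ₁ δ₂ s) (he : ε ≤ 1) (h1 : δ₁ ≤ 1) (x : V n) :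
    Sb s x where
  b0 i j := by
    have e := h.b0 x (mem_univ _) i j
    have e1 : |(1 : Matrix (Fin n) (Fin n) ℝ) i j| ≤ 1 := by
      rw [Matrix.one_apply]
      split_ifs <;> simp
    have e2 : |s x i j| ≤ |s x i j - (1 : Matrix (Fin n) (Fin n) ℝ) i j| +
        |(1 : Matrix (Fin n) (Fin n) ℝ) i j| := by
      have := abs_add_le (s x i j - (1 : Matrix (Fin n) (Fin n) ℝ) i j)
        ((1 : Matrix (Fin n) (Fin n) ℝ) i j)
      rwa [sub_add_cancel] at this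
    linarith
  b1 i j := (h.b1 x (mem_univ _) i i j).trans h1
  df i j := ((h.sm i j).contDiffAt Filter.univ_mem).differentiableAt (by simp)

end slots

/-! ## Geometry -/

theorem FwQ.sb1 (hq : FwQ n q) (ok : PkOk q d) (x : V n) : Sb d.s₁ x := by
  have hR0 : 0 < q.R := one_pos.trans_le hq.R1
  have hc := FwQ.cT0 n
  have hε := hq.ε0
  have e3 := hq.ε3
  have n0 : (0 : ℝ) ≤ n := Nat.cast_nonneg n
  have h0 : cT n * q.ε ≤ 1 := by nlinarith [mul_nonneg n0 (mul_nonneg hc.le hε)]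
  have hi : q.R⁻¹ ≤ 1 := inv_le_one_of_one_le₀ hq.R1
  refine Sb.of (rg_n1 ok.rg (by norm_num) hq.ε0 hR0) h0 ?_ x
  exact mul_le_one₀ h0 (by positivity) hi

theorem FwQ.sb2 (hq : FwQ n q) (ok : PkOk q d) (x : V n) : Sb d.s₂ x := by
  have hR0 : 0 < q.R := one_pos.trans_le hq.R1
  have hc := FwQ.cT0 n
  have hε := hq.ε0
  have e3 := hq.ε3
  have n0 : (0 : ℝ) ≤ n := Nat.cast_nonneg n
  have h0 : cT n * q.ε ≤ 1 := by nlinarith [mul_nonneg n0 (mul_nonneg hc.le hε)]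
  have hi : q.R⁻¹ ≤ 1 := inv_le_one_of_one_le₀ hq.R1
  refine Sb.of (rg_n2 ok.rg (by norm_num) hq.ε0 hR0) h0 ?_ x
  exact mul_le_one₀ h0 (by positivity) hi

theorem norm_e0 (n : ℕ) : ‖(T3.e0 n : V n)‖ ≤ 1 := by
  rw [pi_norm_le_iff_of_nonneg zero_le_one]
  intro i
  unfold T3.e0
  split_ifs <;> simp

theorem FwQ.P_le (hq : FwQ n q) (ok : PkOk q d) (x : V n) : ‖d.P x‖ ≤ 4 / q.σ * q.R := by
  have hR : 0 < q.R := one_pos.trans_le hq.R1
  have hσ := hq.σ0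
  have hs : 5000 ≤ q.σ⁻¹ := by
    rw [le_inv_comm₀ (by norm_num) hσ]
    have := hq.σ1
    norm_num at this ⊢
    exact this
  rw [ok.ret.lit]
  unfold rP
  rw [norm_smul, Real.norm_eq_abs, abs_of_pos hR, mul_comm (4 / q.σ)]
  refine mul_le_mul_of_nonneg_left ?_ hR.le
  have h1 := (gy_le_iff hq.hn hσ (by norm_num) _).1 (rt_hi hq.hn hσ (q.R⁻¹ • x))
  have h2 := norm_le_en (H871.INF.rt n q.σ (q.R⁻¹ • x) - yc n q.σ)
  have h3 : H871.INF.rt n q.σ (q.R⁻¹ • x) =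
      (H871.INF.rt n q.σ (q.R⁻¹ • x) - yc n q.σ) + yc n q.σ := by abel
  have h4 := ra_le hσ (by norm_num : (0 : ℝ) ≤ 31 / 10)
  have h5 : ‖yc n q.σ‖ ≤ q.σ⁻¹ := by
    unfold yc
    rw [norm_smul, Real.norm_eq_abs, abs_of_neg (by linarith)]
    have h6 := norm_e0 n
    have h7 := norm_nonneg (T3.e0 n : V n)
    nlinarith
  rw [h3]
  refine (norm_add_le _ _).trans ?_
  have h8 : 4 / q.σ = 4 * q.σ⁻¹ := div_eq_mul_inv _ _
  rw [h8]
  linarith

theorem FwQ.P_id (hq : FwQ n q) (ok : PkOk q d) {x : V n} (h : d.l x < d.l₀ q + 26 / 10 * q.R) :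
    d.P x = x := by
  have hR : 0 < q.R := one_pos.trans_le hq.R1
  exact ok.ret.id x (by linarith)

/-- Near the tree the level is small. -/
theorem FwQ.l_lt (hq : FwQ n q) (ok : PkOk q d) {x : V n} (h : HY.sq x ≤ 5 * q.R ^ 2) :
    d.l x < d.l₀ q + 26 / 10 * q.R := by
  have hR : 0 < q.R := one_pos.trans_le hq.R1
  have hσ := hq.σ0
  have hσ1 := hq.σ1
  have el : d.l₀ q = lam0 q.R d.kap d.Gs := rfl
  rw [ok.lev.lit, el]
  by_cases h1 : lam0 q.R d.kap d.Gs - 229 / 100 * q.R ≤ levG n q.σ q.R d.kap d.Gs x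
  · rw [levG_high hq.hn hσ hσ1 hR h1]
    unfold lv lam0 T4.gy
    have h2 : HY.sq (q.R⁻¹ • x) ≤ 5 := by
      have e : HY.sq (q.R⁻¹ • x) = q.R⁻¹ ^ 2 * HY.sq x := by
        unfold HY.sq
        rw [Finset.mul_sum]
        refine Finset.sum_congr rfl fun i _ => ?_
        simp only [Pi.smul_apply, smul_eq_mul]
        ring
      rw [e]
      calc q.R⁻¹ ^ 2 * HY.sq x ≤ q.R⁻¹ ^ 2 * (5 * q.R ^ 2) := by gcongr
        _ = 5 := by field_simp
    obtain ⟨v, hv⟩ : ∃ v, v = q.R⁻¹ • x := ⟨_, rfl⟩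
    rw [← hv] at h2 ⊢
    have e0 := H871.INF.sq_e0 hq.hn
    have hs := H871.INF.sq_sub_smul v (T3.e0 n) 1
    rw [one_smul, e0] at hs
    obtain ⟨t, ht⟩ : ∃ t, t = ∑ i, v i * T3.e0 n i := ⟨_, rfl⟩
    have hCS : t ^ 2 ≤ 5 := by
      have := Finset.sum_mul_sq_le_sq_mul_sq Finset.univ v (T3.e0 n)
      rw [← ht] at this
      have e1 : ∑ i, (T3.e0 n i) ^ 2 = 1 := e0
      have e2 : ∑ i, (v i) ^ 2 ≤ 5 := h2
      rw [e1, mul_one] at this
      linarith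
    have ht1 : t ≤ 9 / 4 := by nlinarith
    have ht2 : -(9 / 4) ≤ t := by nlinarith
    rw [← ht] at hs ⊢
    rw [hs]
    have h3 : q.σ / 2 * (HY.sq v - 2 * 1 * t + 1 ^ 2 * 1) ≤ 1 / 100 := by
      have h4 : HY.sq v - 2 * 1 * t + 1 ^ 2 * 1 ≤ 11 := by linarith
      have h5 : q.σ / 2 * (HY.sq v - 2 * 1 * t + 1 ^ 2 * 1) ≤ q.σ / 2 * 11 := by gcongr
      linarith
    nlinarith
  · linarith

theorem FwQ.x_le (hq : FwQ n q) (ok : PkOk q d) {x : V n} (h : d.l x < d.l₀ q + 26 / 10 * q.R) :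
    ‖x‖ ≤ 4 / q.σ * q.R := by
  have := hq.P_le ok x
  rwa [hq.P_id ok h] at this

/-! ## Slices of the weight -/

theorem FwQ.Wsm (hq : FwQ n q) (ok : PkOk q d) : ContDiff ℝ ∞ (d.W q) := by
  have hR0 : 0 < q.R := one_pos.trans_le hq.R1
  refine WT_smooth ok.ok ok.Θs ok.ret.sm ok.lev.sm fun i j => ?_
  exact contDiffOn_univ.1 ((rg_ng ok.rg (by norm_num) hq.ε0 hR0 isOpen_univ hq.ε1 hq.ε2).1.sm i j)

/-- The pair with the first point retracted. -/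
def zy (d : Pk n) (z : VV n) : VV n := (d.P z.1, z.2)

/-- The pair with the second point retracted. -/
def zx (d : Pk n) (z : VV n) : VV n := (z.1, d.P z.2)

theorem FwQ.jy (hq : FwQ n q) (ok : PkOk q d) (h : d.l z.2 < d.l₀ q + 26 / 10 * q.R)
    (hJ : J (WW (d.F q) d.l (gi d.s₁)) (zy d z) a b) : Jy (d.W q) z a b := by
  have hR0 : 0 < q.R := one_pos.trans_le hq.R1
  refine Jy.of ((hq.Wsm ok).contDiffAt.of_le two_le) ?_
  have hJ' : J (WW (d.F q) d.l (gi d.s₁)) (d.P z.1, z.2) a b := hJ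
  refine (hJ'.sl_r.add_const (d.Θ (d.l z.1))).congr ?_
  have hc : ContinuousAt d.l z.2 := ok.lev.sm.continuous.continuousAt
  filter_upwards [hc.eventually (Iio_mem_nhds h)] with y hy
  change WW (d.F q) d.l (gi d.s₁) (d.P z.1, d.P y) + (d.Θ (d.l z.1) + d.Θ (d.l y)) = _
  rw [hq.P_id ok hy, ok.Θ0 _ hy.le, add_zero]

theorem FwQ.jx (hq : FwQ n q) (ok : PkOk q d) (h : d.l z.1 < d.l₀ q + 26 / 10 * q.R)
    (hJ : J (WW (d.F q) d.l (gi d.s₁)) (zx d z) a b) : Jx (d.W q) z a b := by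
  have hR0 : 0 < q.R := one_pos.trans_le hq.R1
  refine Jx.of ((hq.Wsm ok).contDiffAt.of_le two_le) ?_
  have hJ' : J (WW (d.F q) d.l (gi d.s₁)) (z.1, d.P z.2) a b := hJ
  refine (hJ'.sl_l.add_const (d.Θ (d.l z.2))).congr ?_
  have hc : ContinuousAt d.l z.1 := ok.lev.sm.continuous.continuousAt
  filter_upwards [hc.eventually (Iio_mem_nhds h)] with y hy
  change WW (d.F q) d.l (gi d.s₁) (d.P y, d.P z.2) + (d.Θ (d.l y) + d.Θ (d.l z.2)) = _
  rw [hq.P_id ok hy, ok.Θ0 _ hy.le, zero_add]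

/-! ## The bounds -/

/-- The bounds of `F` and `Λ W` of a slot, in terms of a pair `w`. -/
structure Fwb (d : Pk n) (q : Cst) (F L : ℝ) (w : VV n) (C : ℝ) : Prop where
  nF : d.r2 w ≤ 4 → F ≤ C * (d.N q w + d.E q w * √(d.r2 w)) ^ 2
  nL : d.r2 w ≤ 4 → |L| ≤ C * (d.N q w + d.E q w)
  oF : q.c₀ / 2 ≤ √(d.r2 w) → F ≤ C * (d.N q w + d.Gf q w) ^ 2
  oL : q.c₀ / 2 ≤ √(d.r2 w) → |L| ≤ C * (d.N q w + d.Gf q w)

/-- The constant. -/
def fwD (n : ℕ) (q : Cst) : ℝ := n ^ 2 * (2 * fwC n q ^ 2) + n ^ 2 * (4 * fwC n q)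

theorem FwQ.fin (hq : FwQ n q) (ok : PkOk q d) (hM : 0 ≤ q.M₀) {w : VV n} {F L : ℝ}
    (h1 : ‖w.1‖ ≤ 4 / q.σ * q.R) (h2 : ‖w.2‖ ≤ 4 / q.σ * q.R)
    (h : ∀ a b, 0 ≤ a → 0 ≤ b → J (WW (d.F q) d.l (gi d.s₁)) w a b →
      F ≤ n ^ 2 * (2 * a ^ 2) ∧ |L| ≤ n ^ 2 * (2 * b + a)) : Fwb d q F L w (fwD n q) := by
  have C1 := hq.C1
  have hN : 0 ≤ d.N q w := FwQ.N0 ok hM _
  have E0 : 0 < d.E q w := Real.exp_pos _
  have r0 := Real.sqrt_nonneg (d.r2 w)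
  have n0 : (0 : ℝ) ≤ n ^ 2 := by positivity
  obtain ⟨C, hC⟩ : ∃ C, C = fwC n q := ⟨_, rfl⟩
  have eD : fwD n q = n ^ 2 * (2 * C ^ 2) + n ^ 2 * (4 * C) := by rw [hC]; rfl
  have C0 : 0 ≤ C := by rw [hC]; linarith
  have near : d.r2 w ≤ 4 → F ≤ n ^ 2 * (2 * (C * (d.N q w + d.E q w * √(d.r2 w))) ^ 2) ∧
      |L| ≤ n ^ 2 * (2 * (C * (d.N q w + d.E q w)) + C * (d.N q w + d.E q w * √(d.r2 w))) := by
    intro hr
    rw [hC]
    exact h _ _ (by rw [← hC]; positivity) (by rw [← hC]; positivity) (hq.near ok hM h1 h2 hr)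
  have far : q.c₀ / 2 ≤ √(d.r2 w) → 0 ≤ d.Gf q w ∧
      F ≤ n ^ 2 * (2 * (C * (d.N q w + d.Gf q w)) ^ 2) ∧
      |L| ≤ n ^ 2 * (2 * (C * (d.N q w + d.Gf q w)) + C * (d.N q w + d.Gf q w)) := by
    intro hr
    have hc2 : 0 < q.c₀ / 2 := by have := hq.c0; linarith
    have G0 : 0 ≤ d.Gf q w := (ok.sl.G_pos (_, √(d.r2 w)) (hc2.trans_le hr)).le
    rw [hC]
    exact ⟨G0, h _ _ (by rw [← hC]; positivity) (by rw [← hC]; positivity)
      (hq.off ok hM h1 h2 hr)⟩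
  refine ⟨fun hr => ?_, fun hr => ?_, fun hr => ?_, fun hr => ?_⟩
  · refine (near hr).1.trans ?_
    rw [eD]
    have : 0 ≤ n ^ 2 * (4 * C) * (d.N q w + d.E q w * √(d.r2 w)) ^ 2 := by positivity
    nlinarith
  · refine (near hr).2.trans ?_
    have hr2 : √(d.r2 w) ≤ 2 := by
      rw [Real.sqrt_le_left (by norm_num)]
      norm_num
      exact hr
    have k1 : d.E q w * √(d.r2 w) ≤ d.E q w * 2 := mul_le_mul_of_nonneg_left hr2 E0.le
    have k2 : C * (d.N q w + d.E q w * √(d.r2 w)) ≤ C * (2 * (d.N q w + d.E q w)) :=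
      mul_le_mul_of_nonneg_left (by linarith) C0
    have k3 : (n : ℝ) ^ 2 * (2 * (C * (d.N q w + d.E q w)) +
        C * (d.N q w + d.E q w * √(d.r2 w))) ≤ n ^ 2 * (4 * (C * (d.N q w + d.E q w))) :=
      mul_le_mul_of_nonneg_left (by linarith) n0
    refine k3.trans ?_
    rw [eD]
    have : 0 ≤ n ^ 2 * (2 * C ^ 2) * (d.N q w + d.E q w) := by positivity
    nlinarith
  · obtain ⟨G0, k, -⟩ := far hr
    refine k.trans ?_
    rw [eD]
    have : 0 ≤ n ^ 2 * (4 * C) * (d.N q w + d.Gf q w) ^ 2 := by positivity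
    nlinarith
  · obtain ⟨G0, -, k⟩ := far hr
    refine k.trans ?_
    rw [eD]
    have k1 : 0 ≤ n ^ 2 * (2 * C ^ 2) * (d.N q w + d.Gf q w) := by positivity
    have k2 : 0 ≤ n ^ 2 * C * (d.N q w + d.Gf q w) := by positivity
    nlinarith

/-- **The second slot.** -/
theorem FwQ.fy (hq : FwQ n q) (ok : PkOk q d) (hM : 0 ≤ q.M₀)
    (h : d.l z.2 < d.l₀ q + 26 / 10 * q.R) :
    Fwb d q (d.sy.F (d.W q) z) (d.sy.Λ (d.W q) z) (zy d z) (fwD n q) :=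
  hq.fin ok hM (hq.P_le ok z.1) (hq.x_le ok h) fun _ _ A0 B0 hJ =>
    (hq.jy ok h hJ).bd A0 B0 (hq.sb2 ok z.2)

/-- **The first slot.** -/
theorem FwQ.fx (hq : FwQ n q) (ok : PkOk q d) (hM : 0 ≤ q.M₀)
    (h : d.l z.1 < d.l₀ q + 26 / 10 * q.R) :
    Fwb d q (d.sx.F (d.W q) z) (d.sx.Λ (d.W q) z) (zx d z) (fwD n q) :=
  hq.fin ok hM (hq.x_le ok h) (hq.P_le ok z.2) fun _ _ A0 B0 hJ =>
    (hq.jx ok h hJ).bd A0 B0 (hq.sb1 ok z.1)

theorem fwD_NB (n : ℕ) : NB_M₀ (fwD n) := fun _ => rfl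

/-- The bounds of both slots; `HY.sq x ≤ 5 R²` implies the hypothesis on the level. -/
structure FwP (q : Cst) (d : Pk n) (C : ℝ) : Prop where
  fy : ∀ z : VV n, d.l z.2 < d.l₀ q + 26 / 10 * q.R →
    Fwb d q (d.sy.F (d.W q) z) (d.sy.Λ (d.W q) z) (zy d z) C
  fx : ∀ z : VV n, d.l z.1 < d.l₀ q + 26 / 10 * q.R →
    Fwb d q (d.sx.F (d.W q) z) (d.sx.Λ (d.W q) z) (zx d z) C
  lt : ∀ x : V n, HY.sq x ≤ 5 * q.R ^ 2 → d.l x < d.l₀ q + 26 / 10 * q.R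
  id : ∀ x : V n, d.l x < d.l₀ q + 26 / 10 * q.R → d.P x = x
  PR : ∀ x : V n, ‖d.P x‖ ≤ 4 / q.σ * q.R

/-- **FW**: upper bounds of `F` and `Λ W` of both slots. -/
theorem EvC.fw (hn : 1 ≤ n) : EvC fun q => 1 ≤ fwD n q ∧ ∀ d : Pk n, PkOk q d → FwP q d (fwD n q) := by
  refine ((EvC.fwQ hn).and EvC.pos).mono ?_
  rintro q ⟨hq, ⟨-, -, -, -, -, -, -, -, -, -⟩, ⟨b1, b2, b3, b4, b5, b6, b7⟩, -⟩
  have C1 := hq.C1
  have hM : 0 ≤ q.M₀ := hq.M0 b3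
  have h1 : (1 : ℝ) ≤ n := by exact_mod_cast hn
  refine ⟨?_, fun d ok => ⟨fun z h => hq.fy ok hM h, fun z h => hq.fx ok hM h,
    fun x h => hq.l_lt ok h, fun x h => hq.P_id ok h, fun x => hq.P_le ok x⟩⟩
  unfold fwD
  nlinarith

theorem fw_near (P : ∀ x : V n, d.l x < d.l₀ q + 26 / 10 * q.R → d.P x = x)
    (h1 : d.l z.1 < d.l₀ q + 26 / 10 * q.R) (h2 : d.l z.2 < d.l₀ q + 26 / 10 * q.R) :
    zy d z = z ∧ zx d z = z := by
  unfold zy zx
  rw [P _ h1, P _ h2]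
  exact ⟨rfl, rfl⟩

end Vale.Agent.P088.R2.H349.EP
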